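import Vale.Agent.P344.H951.Par

/-!
# The Cooley–Tukey recursion, in place
-/

set_option linter.unusedSectionVars false

namespace Vale.Agent.P344.InPlace

open Matrix

/-- `F_n` applied along the first coordinate -/
noncomputable def dftOn (n : ℕ) {κ : Type*} (z : Fin n × κ → ℂ) : Fin n × κ → ℂ :=
  fun p => (dftMatrix n *ᵥ fun j => z (j, p.2)) p.1

theorem dftOn_apply (n : ℕ) {κ : Type*} (z : Fin n × κ → ℂ) (i : Fin n) (c : κ) :
    dftOn n z (i, c) = ∑ j : Fin n, zeta n ^ (i.val * j.val) * z (j, c) := rfl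

theorem sqNorm_dftOn {n : ℕ} {κ : Type*} [Fintype κ] [DecidableEq κ] (z : Fin n × κ → ℂ) :
    sqNorm (dftOn n z) = n * sqNorm z := by
  rw [sqNorm_prod, sqNorm_prod z, Finset.mul_sum]
  refine Finset.sum_congr rfl fun c _ => ?_
  exact dft_parseval fun j => z (j, c)

section level
variable {m : ℕ}

/-- one level of the transform: all blocks, in groups of `G₀` blocks -/
theorem good_level {C K : ℝ} {G₀ q n₀ : ℕ}
    (h : Small C n₀ (TS (m := m) (Finset.univ : Finset (Fin G₀))))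
    (hK : growth C ^ (2 * n₀) ≤ K ^ 2) (β : Type) [Fintype β] [DecidableEq β]
    (hβ : Fintype.card β = G₀ * q) :
    Good C K (q * n₀) n₀ (dftOn m : (Fin m × β → ℂ) → (Fin m × β → ℂ)) := by
  have e0 : Fintype.card (Fin G₀ × Fin q) = Fintype.card β := by
    rw [hβ, Fintype.card_prod, Fintype.card_fin, Fintype.card_fin]
  let eβ : Fin G₀ × Fin q ≃ β := Fintype.equivOfCardEq e0
  let e : (Fin m × Fin G₀) × Fin q ≃ Fin m × β :=
    (Equiv.prodAssoc _ _ _).trans (Equiv.prodCongr (Equiv.refl _) eβ)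
  have h1 := (good_par (G := Fin q) (fun _ => h) hK).relabel e
  refine (h1.mono_n (by simp) le_rfl).congr ?_
  rintro z ⟨i, c⟩
  obtain ⟨⟨b, g⟩, rfl⟩ := eβ.surjective c
  have hes : e.symm (i, eβ (b, g)) = ((i, b), g) := by
    rw [Equiv.symm_apply_eq]; rfl
  simp only [Function.comp_apply, hes, TS, Finset.mem_univ, if_true, dftOn]
  rfl

end level

section ct
variable {κ : Type*} [Fintype κ] [DecidableEq κ]

/-- digit exchange: `k₁ + a k₂ ↦ (k₁, k₂) ↦ b k₁ + k₂` -/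
def digitPerm (a b : ℕ) : Fin (a * b) ≃ Fin (a * b) :=
  (finCongr (mul_comm a b)).trans
    ((finProdFinEquiv (m := b) (n := a)).symm.trans
      ((Equiv.prodComm _ _).trans (finProdFinEquiv (m := a) (n := b))))

theorem digitPerm_symm_val (a b : ℕ) (k₁ : Fin a) (k₂ : Fin b) :
    ((digitPerm a b).symm (finProdFinEquiv (k₁, k₂))).val = k₁.val + a * k₂.val := by
  have hb : 0 < b := lt_of_le_of_lt (Nat.zero_le _) k₂.2
  simp [digitPerm, finProdFinEquiv, Nat.add_mul_div_left _ _ hb, Nat.mod_eq_of_lt k₂.2,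
    Nat.div_eq_of_lt k₂.2]

theorem ct_identity {a b : ℕ} (ha : a ≠ 0) (hb : b ≠ 0) (z : Fin (a * b) → ℂ) (k₁ : Fin a)
    (k₂ : Fin b) :
    ∑ j₂ : Fin b, zeta b ^ (k₂.val * j₂.val) * (zeta (a * b) ^ (j₂.val * k₁.val) *
      ∑ j₁ : Fin a, zeta a ^ (k₁.val * j₁.val) * z (finProdFinEquiv (j₁, j₂))) =
    ∑ J : Fin (a * b), zeta (a * b) ^ ((k₁.val + a * k₂.val) * J.val) * z J := by
  rw [← Equiv.sum_comp (finProdFinEquiv (m := a) (n := b)), Fintype.sum_prod_type_right]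
  refine Finset.sum_congr rfl fun j₂ _ => ?_
  rw [Finset.mul_sum, Finset.mul_sum]
  refine Finset.sum_congr rfl fun j₁ _ => ?_
  have hval : (finProdFinEquiv (j₁, j₂) : Fin (a * b)).val = j₂.val + b * j₁.val := rfl
  rw [hval]
  have hζ : zeta (a * b) ^ ((k₁.val + a * k₂.val) * (j₂.val + b * j₁.val)) =
      zeta b ^ (k₂.val * j₂.val) * zeta (a * b) ^ (j₂.val * k₁.val) *
        zeta a ^ (k₁.val * j₁.val) := by
    have e1 : zeta b ^ (k₂.val * j₂.val) = zeta (a * b) ^ (a * (k₂.val * j₂.val)) := by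
      rw [← zeta_mul_pow_left (b := b) ha, ← pow_mul]
    have e2 : zeta a ^ (k₁.val * j₁.val) = zeta (a * b) ^ (b * (k₁.val * j₁.val)) := by
      rw [← zeta_mul_pow_right (a := a) hb, ← pow_mul]
    have e3 : zeta (a * b) ^ (a * b * (k₂.val * j₁.val)) = 1 := by
      rw [pow_mul, (zeta_prim (Nat.mul_ne_zero ha hb)).pow_eq_one, one_pow]
    rw [e1, e2, ← pow_add, ← pow_add]
    have : (k₁.val + a * k₂.val) * (j₂.val + b * j₁.val) =
        (a * (k₂.val * j₂.val) + j₂.val * k₁.val + b * (k₁.val * j₁.val)) +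
          a * b * (k₂.val * j₁.val) := by ring
    rw [this, pow_add, e3, mul_one]
  rw [hζ]
  ring

theorem good_ct {C K : ℝ} (hC : 1 ≤ C) (hK : growth C ^ 2 ≤ K ^ 2) {a b : ℕ} (ha : 1 ≤ a)
    (hb : 1 ≤ b) {n₁ d₁ n₂ d₂ : ℕ}
    (h1 : Good C K n₁ d₁ (dftOn a : (Fin a × (Fin b × κ) → ℂ) → (Fin a × (Fin b × κ) → ℂ)))
    (h2 : Good C K n₂ d₂ (dftOn b : (Fin b × (Fin a × κ) → ℂ) → (Fin b × (Fin a × κ) → ℂ))) :
    Good C K (n₁ + Fintype.card (Fin (a * b) × κ) + n₂) (d₁ + 1 + d₂)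
      (dftOn (a * b) : (Fin (a * b) × κ → ℂ) → (Fin (a * b) × κ → ℂ)) := by
  classical
  let e1 : Fin a × (Fin b × κ) ≃ Fin (a * b) × κ :=
    (Equiv.prodAssoc _ _ _).symm.trans (Equiv.prodCongr finProdFinEquiv (Equiv.refl _))
  let e2 : Fin b × (Fin a × κ) ≃ Fin (a * b) × κ :=
    (Equiv.prodAssoc _ _ _).symm.trans
      (Equiv.prodCongr ((Equiv.prodComm _ _).trans finProdFinEquiv) (Equiv.refl _))
  let tw : Fin (a * b) × κ → ℂ := fun r =>
    zeta (a * b) ^ ((finProdFinEquiv.symm r.1).2.val * (finProdFinEquiv.symm r.1).1.val)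
  have htw : ∀ r, ‖tw r‖ = 1 := fun r => by
    simp only [tw, norm_pow, norm_zeta, one_pow]
  have hS1 := h1.relabel e1
  have hS3 := h2.relabel e2
  have hD : Good C K (Fintype.card (Fin (a * b) × κ)) 1
      (fun (z : Fin (a * b) × κ → ℂ) i => tw i * z i) := by
    refine good_diag tw (fun i => ⟨?_, ?_, ?_⟩) hK
    · intro e
      have := htw i
      rw [e, norm_zero] at this
      exact zero_ne_one this
    · rw [htw]; exact hC
    · rw [norm_inv, htw, inv_one]; exact hC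
  have ha' : (0 : ℝ) < a := by exact_mod_cast ha
  have hn1 : ∀ z : Fin (a * b) × κ → ℂ,
      sqNorm (dftOn a (z ∘ e1) ∘ e1.symm) = a * sqNorm z := by
    intro z
    rw [sqNorm_comp_equiv e1.symm, sqNorm_dftOn, sqNorm_comp_equiv e1]
  have h12 := hS1.comp hD ha' hn1
  have hn2 : ∀ z : Fin (a * b) × κ → ℂ,
      sqNorm (fun i => tw i * (dftOn a (z ∘ e1) ∘ e1.symm) i) = a * sqNorm z := by
    intro z
    rw [← hn1 z]
    unfold sqNorm
    refine Finset.sum_congr rfl fun i _ => ?_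
    rw [norm_mul, htw, one_mul]
  have h123 := h12.comp hS3 ha' hn2
  let π : Equiv.Perm (Fin (a * b) × κ) := Equiv.prodCongr (digitPerm a b) (Equiv.refl _)
  refine (h123.permOut π).congr ?_
  rintro z ⟨i, c⟩
  obtain ⟨⟨k₁, k₂⟩, hk⟩ := (finProdFinEquiv (m := a) (n := b)).surjective (digitPerm a b i)
  have hi : i.val = k₁.val + a * k₂.val := by
    have : i = (digitPerm a b).symm (finProdFinEquiv (k₁, k₂)) := by
      rw [hk, Equiv.symm_apply_apply]
    rw [this]; exact digitPerm_symm_val a b k₁ k₂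
  have hπ : π (i, c) = e2 (k₂, (k₁, c)) := by
    have : π (i, c) = (digitPerm a b i, c) := rfl
    rw [this, ← hk]
    rfl
  rw [dftOn_apply, Function.comp_apply, hπ]
  simp only [Function.comp_apply, Equiv.symm_apply_apply]
  rw [dftOn_apply, hi, ← ct_identity (by omega) (by omega) (fun J => z (J, c)) k₁ k₂]
  refine Finset.sum_congr rfl fun j₂ _ => ?_
  have he2 : e2 (j₂, (k₁, c)) = e1 (k₁, (j₂, c)) := rfl
  have htwv : tw (e2 (j₂, (k₁, c))) = zeta (a * b) ^ (j₂.val * k₁.val) := by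
    have : e2 (j₂, (k₁, c)) = (finProdFinEquiv (k₁, j₂), c) := rfl
    simp only [tw, this, Equiv.symm_apply_apply]
  simp only [Function.comp_apply, htwv]
  rw [he2, Equiv.symm_apply_apply, dftOn_apply]
  rfl

end ct

/-- the full recursion -/
theorem good_pow {C K : ℝ} (hC : 1 ≤ C) {m : ℕ} (hm : 1 ≤ m) {G₀ q n₀ : ℕ} (hn₀ : 1 ≤ n₀)
    (h : Small C n₀ (TS (m := m) (Finset.univ : Finset (Fin G₀))))
    (hK : growth C ^ (2 * n₀) ≤ K ^ 2) (k : ℕ) :
    ∀ (κ : Type) [Fintype κ] [DecidableEq κ], m ^ k * Fintype.card κ = G₀ * q →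
      Good C K ((k + 1) * (q * n₀ + m * (G₀ * q))) ((k + 1) * (n₀ + 1))
        (dftOn (m ^ (k + 1)) :
          (Fin (m ^ (k + 1)) × κ → ℂ) → (Fin (m ^ (k + 1)) × κ → ℂ)) := by
  have hK2 : growth C ^ 2 ≤ K ^ 2 := by
    refine le_trans ?_ hK
    exact pow_le_pow_right₀ (one_le_growth C) (by omega)
  induction k with
  | zero =>
    intro κ _ _ hκ
    rw [pow_zero, one_mul] at hκ
    have h1 := good_level h hK κ hκ
    rw [zero_add, pow_one]
    exact h1.mono_n (by omega) (by omega)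
  | succ k ih =>
    intro κ _ _ hκ
    have h1 : Good C K (q * n₀) n₀ (dftOn m :
        (Fin m × (Fin (m ^ (k + 1)) × κ) → ℂ) → (Fin m × (Fin (m ^ (k + 1)) × κ) → ℂ)) := by
      refine good_level h hK (Fin (m ^ (k + 1)) × κ) ?_
      rw [Fintype.card_prod, Fintype.card_fin, hκ]
    have h2 := ih (Fin m × κ) (by
      rw [Fintype.card_prod, Fintype.card_fin, ← hκ]; ring)
    have h3 := good_ct hC hK2 hm (Nat.one_le_pow _ _ hm) h1 h2
    have hcard : Fintype.card (Fin (m * m ^ (k + 1)) × κ) = m * (G₀ * q) := by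
      rw [Fintype.card_prod, Fintype.card_fin, ← hκ]; ring
    rw [hcard] at h3
    have e : m ^ (k + 1 + 1) = m * m ^ (k + 1) := by ring
    rw [e]
    refine h3.mono_n ?_ ?_
    · ring_nf; omega
    · ring_nf; omega

end Vale.Agent.P344.InPlace
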