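import Vale.Agent.P344.H951.Prog

/-!
# Facts on the discrete Fourier matrix
-/

set_option linter.unusedSectionVars false

namespace Vale.Agent.P344.InPlace

open Matrix

/-- `ζ_n = exp (2 π i / n)` -/
noncomputable def zeta (n : ℕ) : ℂ := Complex.exp (2 * Real.pi * Complex.I / n)

theorem zeta_prim {n : ℕ} (hn : n ≠ 0) : IsPrimitiveRoot (zeta n) n :=
  Complex.isPrimitiveRoot_exp n hn

theorem dftMatrix_apply (n : ℕ) (j k : Fin n) : dftMatrix n j k = zeta n ^ (j.val * k.val) := rfl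

theorem norm_zeta (n : ℕ) : ‖zeta n‖ = 1 := by
  unfold zeta
  rw [show (2 * Real.pi * Complex.I / n : ℂ) = ((2 * Real.pi / n : ℝ) : ℂ) * Complex.I by
    push_cast; ring]
  exact Complex.norm_exp_ofReal_mul_I _

theorem zeta_ne_zero (n : ℕ) : zeta n ≠ 0 := by
  intro h
  have := norm_zeta n
  rw [h, norm_zero] at this
  exact zero_ne_one this

/-- `ζ_{ab}^a = ζ_b` -/
theorem zeta_mul_pow_left {a b : ℕ} (ha : a ≠ 0) : zeta (a * b) ^ a = zeta b := by
  unfold zeta
  rw [← Complex.exp_nat_mul]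
  congr 1
  have ha' : (a : ℂ) ≠ 0 := by exact_mod_cast ha
  push_cast
  rcases eq_or_ne b 0 with hb | hb
  · subst hb; simp
  · have hb' : (b : ℂ) ≠ 0 := by exact_mod_cast hb
    field_simp

/-- `ζ_{ab}^b = ζ_a` -/
theorem zeta_mul_pow_right {a b : ℕ} (hb : b ≠ 0) : zeta (a * b) ^ b = zeta a := by
  rw [mul_comm a b]; exact zeta_mul_pow_left hb

/-- the index `-i mod m` -/
def rev {m : ℕ} (i : Fin m) : Fin m := ⟨(m - i.val) % m, Nat.mod_lt _ (Nat.pos_of_ne_zero (by
  have := i.2; omega))⟩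

theorem rev_rev {m : ℕ} (i : Fin m) : rev (rev i) = i := by
  apply Fin.ext
  simp only [rev]
  have hi := i.2
  rcases Nat.eq_zero_or_pos i.val with h | h
  · rw [h, Nat.sub_zero, Nat.mod_self, Nat.sub_zero, Nat.mod_self]
  · rw [Nat.mod_eq_of_lt (by omega : m - i.val < m), Nat.mod_eq_of_lt (by omega)]
    omega

theorem rev_injective {m : ℕ} : Function.Injective (rev : Fin m → Fin m) :=
  fun i j h => by rw [← rev_rev i, h, rev_rev]

theorem dft_rev_mul {m : ℕ} (i j : Fin m) : dftMatrix m (rev i) j * dftMatrix m i j = 1 := by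
  have hm : m ≠ 0 := by have := i.2; omega
  rw [dftMatrix_apply, dftMatrix_apply, ← pow_add, ← add_mul]
  have hd : m ∣ (rev i).val + i.val := by
    simp only [rev]
    rcases Nat.eq_zero_or_pos i.val with h | h
    · rw [h, Nat.sub_zero, Nat.mod_self]; simp
    · have := i.2
      rw [Nat.mod_eq_of_lt (by omega : m - i.val < m)]
      exact ⟨1, by omega⟩
  exact (zeta_prim hm).pow_eq_one_iff_dvd _ |>.2 (hd.mul_right _)

theorem dft_ne_zero {m : ℕ} (i j : Fin m) : dftMatrix m i j ≠ 0 := by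
  rw [dftMatrix_apply]; exact pow_ne_zero _ (zeta_ne_zero m)

theorem dft_rev {m : ℕ} (i j : Fin m) : dftMatrix m (rev i) j = (dftMatrix m i j)⁻¹ :=
  eq_inv_of_mul_eq_one_left (dft_rev_mul i j)

theorem dft_symm {m : ℕ} (i j : Fin m) : dftMatrix m i j = dftMatrix m j i := by
  rw [dftMatrix_apply, dftMatrix_apply, mul_comm]

theorem dft_orth {m : ℕ} (j k : Fin m) :
    ∑ i, dftMatrix m k i * (dftMatrix m j i)⁻¹ = if j = k then (m : ℂ) else 0 := by
  have hm : m ≠ 0 := by have := j.2; omega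
  split_ifs with h
  · subst h
    simp [mul_inv_cancel₀ (dft_ne_zero _ _)]
  · set ω : ℂ := zeta m ^ k.val * (zeta m ^ j.val)⁻¹ with hω
    have hterm : ∀ i : Fin m, dftMatrix m k i * (dftMatrix m j i)⁻¹ = ω ^ i.val := by
      intro i
      rw [dftMatrix_apply, dftMatrix_apply, hω, mul_pow, inv_pow, ← pow_mul, ← pow_mul]
    simp only [hterm]
    rw [Fin.sum_univ_eq_sum_range (fun i => ω ^ i) m]
    have hω1 : ω ≠ 1 := by
      intro e
      rw [hω, mul_inv_eq_one₀ (pow_ne_zero _ (zeta_ne_zero m))] at e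
      exact h (Fin.ext ((zeta_prim hm).pow_inj j.2 k.2 e.symm))
    have hωm : ω ^ m = 1 := by
      rw [hω, mul_pow, inv_pow, ← pow_mul, ← pow_mul, mul_comm k.val, mul_comm j.val, pow_mul,
        pow_mul, (zeta_prim hm).pow_eq_one, one_pow, one_pow, inv_one, mul_one]
    rw [geom_sum_eq hω1, hωm, sub_self, zero_div]

/-- `F (F x) = m x ∘ rev` -/
theorem dft_dft_rev {m : ℕ} (x : Fin m → ℂ) (i : Fin m) :
    (dftMatrix m *ᵥ (dftMatrix m *ᵥ x)) (rev i) = m * x i := by
  simp only [mulVec, dotProduct, dft_rev, Finset.mul_sum]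
  rw [Finset.sum_comm]
  rw [Finset.sum_eq_single i]
  · have : ∀ k, (dftMatrix m i k)⁻¹ * (dftMatrix m k i * x i) = x i := by
      intro k
      rw [dft_symm k i, ← mul_assoc, inv_mul_cancel₀ (dft_ne_zero _ _), one_mul]
    simp [this]
  · intro j _ hj
    have h := dft_orth i j
    rw [if_neg hj.symm] at h
    have : ∀ k, (dftMatrix m i k)⁻¹ * (dftMatrix m k j * x j) =
        (dftMatrix m j k * (dftMatrix m i k)⁻¹) * x j := by
      intro k
      rw [dft_symm k j]; ring
    simp only [this]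
    rw [← Finset.sum_mul, h, zero_mul]
  · simp

/-- `F ((F y) ∘ rev) = m y` -/
theorem dft_of_rev {m : ℕ} (y : Fin m → ℂ) (k : Fin m) :
    (dftMatrix m *ᵥ (fun i => (dftMatrix m *ᵥ y) (rev i))) k = m * y k := by
  simp only [mulVec, dotProduct, dft_rev, Finset.mul_sum]
  rw [Finset.sum_comm]
  rw [Finset.sum_eq_single k]
  · have : ∀ i, dftMatrix m k i * ((dftMatrix m i k)⁻¹ * y k) = y k := by
      intro i
      rw [dft_symm k i, ← mul_assoc, mul_inv_cancel₀ (dft_ne_zero _ _), one_mul]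
    simp [this]
  · intro j _ hj
    have h := dft_orth j k
    rw [if_neg hj] at h
    have : ∀ i, dftMatrix m k i * ((dftMatrix m i j)⁻¹ * y j) =
        (dftMatrix m k i * (dftMatrix m j i)⁻¹) * y j := by
      intro i
      rw [dft_symm i j]; ring
    simp only [this]
    rw [← Finset.sum_mul, h, zero_mul]
  · simp

theorem dft_conj {m : ℕ} (i j : Fin m) : star (dftMatrix m i j) = (dftMatrix m i j)⁻¹ := by
  have h1 : ‖dftMatrix m i j‖ = 1 := by
    rw [dftMatrix_apply, norm_pow, norm_zeta, one_pow]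
  rw [Complex.inv_def, Complex.normSq_eq_norm_sq, h1]
  simp

/-- Parseval -/
theorem dft_parseval {m : ℕ} (x : Fin m → ℂ) :
    ∑ i, ‖(dftMatrix m *ᵥ x) i‖ ^ 2 = m * ∑ i, ‖x i‖ ^ 2 := by
  have hkey : (star (dftMatrix m *ᵥ x)) ⬝ᵥ (dftMatrix m *ᵥ x) = m * (star x ⬝ᵥ x) := by
    have hFF : (dftMatrix m)ᴴ * dftMatrix m = (m : ℂ) • (1 : Matrix (Fin m) (Fin m) ℂ) := by
      ext j k
      rw [Matrix.mul_apply, Matrix.smul_apply, Matrix.one_apply]
      have h := dft_orth j k
      have : ∀ i, (dftMatrix m)ᴴ j i * dftMatrix m i k =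
          dftMatrix m k i * (dftMatrix m j i)⁻¹ := by
        intro i
        rw [Matrix.conjTranspose_apply, dft_conj, dft_symm i j, dft_symm i k, mul_comm]
      simp only [this]
      rw [h]
      split_ifs <;> simp
    rw [Matrix.star_mulVec, Matrix.dotProduct_mulVec, Matrix.vecMul_vecMul, hFF,
      Matrix.vecMul_smul, Matrix.vecMul_one, smul_dotProduct, smul_eq_mul]
  have hn : ∀ v : Fin m → ℂ, (star v ⬝ᵥ v) = ((∑ i, ‖v i‖ ^ 2 : ℝ) : ℂ) := by
    intro v
    rw [dotProduct]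
    push_cast
    refine Finset.sum_congr rfl fun i _ => ?_
    rw [Pi.star_apply, Complex.star_def, Complex.conj_mul']
  rw [hn, hn] at hkey
  exact_mod_cast hkey

end Vale.Agent.P344.InPlace
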