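import Vale.Agent.P344.H952.Defs

/-!
# In-place programs for the discrete Fourier transform

An in-place program works on exactly one register per input, without any further memory.  Its
steps are `x_i ← x_i + a * x_j` (`i ≠ j`) and `x_i ← b * x_i` (`b ≠ 0`).
-/

namespace Vale.Agent.P344.InPlace

/-- A step of an in-place program on registers indexed by `ι`. -/
inductive Step (ι : Type*) where
  /-- `x_i ← x_i + a * x_j` -/
  | add (i j : ι) (a : ℂ)
  /-- `x_i ← b * x_i` -/
  | scale (i : ι) (b : ℂ)

section
variable {ι : Type*}

/-- The step is invertible and its coefficients are bounded by `C`: `‖a‖ ≤ C`, and `‖b‖ ≤ C`,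
`‖b⁻¹‖ ≤ C`. -/
def Step.Legal (C : ℝ) : Step ι → Prop
  | .add i j a => i ≠ j ∧ ‖a‖ ≤ C
  | .scale _ b => b ≠ 0 ∧ ‖b‖ ≤ C ∧ ‖b⁻¹‖ ≤ C

variable [DecidableEq ι]

/-- The effect of a step on the contents `x` of the registers. -/
noncomputable def Step.act : Step ι → (ι → ℂ) → (ι → ℂ)
  | .add i j a, x => Function.update x i (x i + a * x j)
  | .scale i b, x => Function.update x i (b * x i)

/-- The effect of a program (a list of steps, executed from left to right). -/
noncomputable def run (p : List (Step ι)) (x : ι → ℂ) : ι → ℂ :=
  p.foldl (fun y s => s.act y) x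

/-- Parallel time stamps: `τ r` is the number of the last parallel round in which register `r`
was used; a step takes place one round after the last use of its registers. -/
def Step.tick : Step ι → (ι → ℕ) → (ι → ℕ)
  | .add i j _, τ => fun r => if r = i ∨ r = j then max (τ i) (τ j) + 1 else τ r
  | .scale i _, τ => fun r => if r = i then τ i + 1 else τ r

/-- The time stamps after a program. -/
def clock (p : List (Step ι)) (τ : ι → ℕ) : ι → ℕ :=
  p.foldl (fun σ s => s.tick σ) τ

/-- The depth (parallel time) of a program: steps on disjoint registers may be done in the same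
round. -/
def depth [Fintype ι] (p : List (Step ι)) : ℕ := Finset.univ.sup (clock p fun _ => 0)

/-- The square of the Euclidean norm. -/
noncomputable def sqNorm [Fintype ι] (x : ι → ℂ) : ℝ := ∑ i, ‖x i‖ ^ 2

/-- Every intermediate transformation (the effect of every initial segment `q` of the program
`p`) has condition number at most `K`. -/
def CondLe [Fintype ι] (K : ℝ) (p : List (Step ι)) : Prop :=
  ∀ q : List (Step ι), q <+: p → ∃ α > 0, ∀ x : ι → ℂ,
    α * sqNorm x ≤ sqNorm (run q x) ∧ sqNorm (run q x) ≤ K ^ 2 * α * sqNorm x

end

/-- The program `p` on exactly `n` registers transforms the contents `x` into `F_n x`, up to the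
order of the registers. -/
def ComputesDFT (n : ℕ) (p : List (Step (Fin n))) : Prop :=
  ∃ σ : Equiv.Perm (Fin n), ∀ (x : Fin n → ℂ) (j : Fin n), run p x (σ j) = dft n j x

/-- A tame in-place program for `F_n` with bound `C`: coefficients (and inverses of scaling
factors) and the condition numbers of all intermediate transformations are at most `C`, and the
depth is at most `C log n`. -/
def Tame (C : ℝ) (n : ℕ) (p : List (Step (Fin n))) : Prop :=
  ComputesDFT n p ∧ (∀ s ∈ p, s.Legal C) ∧ CondLe C p ∧ (depth p : ℝ) ≤ C * Real.logb 2 n

end Vale.Agent.P344.InPlace
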