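import Vale.Agent.P344.H951.Prog

/-!
# Computing with dirty registers

A linear circuit with `s` gates computing `x ↦ v(x)` gives an in-place program for
`(x, y, r) ↦ (x, y + c v(x), r)`, where `r` are `s` registers with arbitrary contents.
-/

set_option linter.unusedSectionVars false

namespace Vale.Agent.P344.InPlace

variable {ι : Type*} [DecidableEq ι] {m : ℕ}

/-! ### scaling many registers -/

theorem run_scales_of_notMem {α : Type*} (f : α → ι) (b : α → ℂ) (l : List α) (z : ι → ℂ) {r : ι}
    (hr : ∀ i ∈ l, f i ≠ r) : run (l.map fun i => Step.scale (f i) (b i)) z r = z r := by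
  induction l generalizing z with
  | nil => rfl
  | cons a l ih =>
    rw [List.map_cons, run_cons, ih _ (fun i hi => hr i (List.mem_cons_of_mem _ hi))]
    simp only [Step.act]
    rw [Function.update_of_ne (hr a List.mem_cons_self).symm]

theorem run_scales {α : Type*} {f : α → ι} (hf : Function.Injective f) (b : α → ℂ) (l : List α)
    (hl : l.Nodup) (z : ι → ℂ) {j : α} (hj : j ∈ l) :
    run (l.map fun i => Step.scale (f i) (b i)) z (f j) = b j * z (f j) := by
  induction l generalizing z with
  | nil => simp at hj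
  | cons a l ih =>
    rw [List.nodup_cons] at hl
    rw [List.map_cons, run_cons]
    rcases List.mem_cons.1 hj with h | h
    · subst h
      rw [run_scales_of_notMem f b l _ (fun i hi e => hl.1 (by have e' := hf e; rwa [e'] at hi))]
      simp [Step.act]
    · rw [ih hl.2 _ h]
      have : f j ≠ f a := fun e => hl.1 (by have e' := hf e; rwa [e'] at h)
      simp [Step.act, Function.update_of_ne this]

/-! ### simulation of a circuit -/

/-- the register holding the value with address `a`, when the gates with number `< k` are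
available (none: the constant `0`) -/
def addr (X : Fin m → ι) (R : ℕ → ι) (k a : ℕ) : Option ι :=
  if a = 0 then none
  else if h : a - 1 < m then some (X ⟨a - 1, h⟩)
  else if a - 1 - m < k then some (R (a - 1 - m))
  else none

/-- the program `dst += c * src` (nothing if the source is the constant `0`) -/
def acc (dst : ι) (c : ℂ) : Option ι → List (Step ι)
  | none => []
  | some j => [.add dst j c]

/-- the value in a register (`0` if the source is the constant `0`) -/
def rd (z : ι → ℂ) (o : Option ι) : ℂ := o.elim 0 z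

theorem run_acc (dst : ι) (c : ℂ) (o : Option ι) (z : ι → ℂ) :
    run (acc dst c o) z = Function.update z dst (z dst + c * rd z o) := by
  cases o with
  | none => simp [acc, rd]
  | some j => simp [acc, rd, Step.act]

theorem length_acc_le (dst : ι) (c : ℂ) (o : Option ι) : (acc dst c o).length ≤ 1 := by
  cases o <;> simp [acc]

theorem rd_update {z : ι → ℂ} {o : Option ι} {dst : ι} {v : ℂ} (h : ∀ r ∈ o, r ≠ dst) :
    rd (Function.update z dst v) o = rd z o := by
  cases o with
  | none => rfl
  | some j => simp [rd, Function.update_of_ne (h j rfl)]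

theorem rd_add (z z' : ι → ℂ) (o : Option ι) : rd (z + z') o = rd z o + rd z' o := by
  cases o <;> simp [rd]

/-- simulation of gate number `k` in register `R k` -/
def gateProg (X : Fin m → ι) (R : ℕ → ι) (k : ℕ) : Gate → List (Step ι)
  | .add u v => acc (R k) 1 (addr X R k u) ++ acc (R k) 1 (addr X R k v)
  | .sub u v => acc (R k) 1 (addr X R k u) ++ acc (R k) (-1) (addr X R k v)
  | .smul c u => acc (R k) c (addr X R k u)

/-- simulation of the gates `gs`, the first having number `k` -/
def fwd (X : Fin m → ι) (R : ℕ → ι) : ℕ → List Gate → List (Step ι)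
  | _, [] => []
  | k, g :: gs => gateProg X R k g ++ fwd X R (k + 1) gs

/-- input registers `X`, output registers `Y` and `s` work registers `R` are all different -/
structure Setup (X Y : Fin m → ι) (R : ℕ → ι) (s : ℕ) : Prop where
  XX : Function.Injective X
  YY : Function.Injective Y
  XY : ∀ i j, X i ≠ Y j
  XR : ∀ i, ∀ a < s, X i ≠ R a
  YR : ∀ i, ∀ a < s, Y i ≠ R a
  RR : ∀ a < s, ∀ b < s, R a = R b → a = b

theorem Setup.symm {X Y : Fin m → ι} {R : ℕ → ι} {s : ℕ} (h : Setup X Y R s) :
    Setup Y X R s :=
  ⟨h.YY, h.XX, fun i j e => h.XY j i e.symm, h.YR, h.XR, h.RR⟩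

/-- the list `w` of values is stored in the registers -/
structure Rep (X : Fin m → ι) (R : ℕ → ι) (k : ℕ) (z : ι → ℂ) (w : List ℂ) : Prop where
  len : w.length = 1 + m + k
  zero : w.getD 0 0 = 0
  inp : ∀ i : Fin m, w.getD (1 + i) 0 = z (X i)
  gate : ∀ a < k, w.getD (1 + m + a) 0 = z (R a)

theorem Rep.read {X : Fin m → ι} {R : ℕ → ι} {k : ℕ} {z : ι → ℂ} {w : List ℂ}
    (h : Rep X R k z w) (a : ℕ) : w.getD a 0 = rd z (addr X R k a) := by
  unfold addr
  split_ifs with h0 h1 h2
  · subst h0; simpa [rd] using h.zero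
  · have := h.inp ⟨a - 1, h1⟩
    have e : 1 + (a - 1) = a := by omega
    simp only [e] at this
    simpa [rd] using this
  · have := h.gate (a - 1 - m) h2
    have e : 1 + m + (a - 1 - m) = a := by omega
    rw [e] at this
    simpa [rd] using this
  · rw [List.getD_eq_default]
    · rfl
    · rw [h.len]; omega

theorem addr_ne_of_lt {X Y : Fin m → ι} {R : ℕ → ι} {s : ℕ} (h : Setup X Y R s) {k : ℕ}
    (hk : k < s) (a : ℕ) : ∀ r ∈ addr X R k a, r ≠ R k := by
  intro r hr
  unfold addr at hr
  split_ifs at hr with h0 h1 h2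
  · simp at hr
  · simp only [Option.mem_def, Option.some.injEq] at hr
    subst hr
    exact h.XR _ _ hk
  · simp only [Option.mem_def, Option.some.injEq] at hr
    subst hr
    intro e
    have := h.RR _ (by omega) _ hk e
    omega
  · simp at hr

theorem run_gateProg {X Y : Fin m → ι} {R : ℕ → ι} {s : ℕ} (h : Setup X Y R s) {k : ℕ}
    (hk : k < s) {z : ι → ℂ} {w : List ℂ} (hz : Rep X R k z w) (g : Gate) :
    run (gateProg X R k g) z = Function.update z (R k) (z (R k) + g.value w) := by
  cases g with
  | add u v =>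
    simp only [gateProg, run_append, run_acc, Gate.value, rd_update (addr_ne_of_lt h hk v),
      Function.update_self, Function.update_idem, hz.read]
    congr 1; ring
  | sub u v =>
    simp only [gateProg, run_append, run_acc, Gate.value, rd_update (addr_ne_of_lt h hk v),
      Function.update_self, Function.update_idem, hz.read]
    congr 1; ring
  | smul c u =>
    simp only [gateProg, run_acc, Gate.value, hz.read]

theorem length_gateProg_le (X : Fin m → ι) (R : ℕ → ι) (k : ℕ) (g : Gate) :
    (gateProg X R k g).length ≤ 2 := by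
  cases g with
  | add u v =>
    have h1 := length_acc_le (R k) 1 (addr X R k u)
    have h2 := length_acc_le (R k) 1 (addr X R k v)
    simp only [gateProg, List.length_append]; omega
  | sub u v =>
    have h1 := length_acc_le (R k) 1 (addr X R k u)
    have h2 := length_acc_le (R k) (-1) (addr X R k v)
    simp only [gateProg, List.length_append]; omega
  | smul c u =>
    have h1 := length_acc_le (R k) c (addr X R k u)
    simp only [gateProg]; omega

theorem length_fwd_le (X : Fin m → ι) (R : ℕ → ι) (k : ℕ) (gs : List Gate) :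
    (fwd X R k gs).length ≤ 2 * gs.length := by
  induction gs generalizing k with
  | nil => simp [fwd]
  | cons g gs ih =>
    have h1 := length_gateProg_le X R k g
    have h2 := ih (k + 1)
    simp only [fwd, List.length_append, List.length_cons]; omega

theorem Rep.step {X Y : Fin m → ι} {R : ℕ → ι} {s : ℕ} (h : Setup X Y R s) {k : ℕ}
    (hk : k < s) {z : ι → ℂ} {w : List ℂ} (hz : Rep X R k z w) (h0 : z (R k) = 0) (v : ℂ) :
    Rep X R (k + 1) (Function.update z (R k) (z (R k) + v)) (w ++ [v]) := by
  refine ⟨by simp [hz.len]; omega, ?_, ?_, ?_⟩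
  · have hl := hz.len
    rw [List.getD_append _ _ _ _ (by omega)]
    exact hz.zero
  · intro i
    have hl := hz.len
    have := i.2
    rw [List.getD_append _ _ _ _ (by omega), Function.update_of_ne (h.XR _ _ hk)]
    exact hz.inp i
  · intro a ha
    have hl := hz.len
    rcases Nat.lt_succ_iff_lt_or_eq.1 ha with h1 | h1
    · rw [List.getD_append _ _ _ _ (by omega), Function.update_of_ne]
      · exact hz.gate a h1
      · intro e
        have := h.RR _ (by omega) _ hk e
        omega
    · subst h1
      rw [List.getD_append_right _ _ _ _ (by omega)]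
      simp [hl, h0]

theorem run_fwd {X Y : Fin m → ι} {R : ℕ → ι} {s : ℕ} (h : Setup X Y R s) (gs : List Gate)
    {k : ℕ} (hk : k + gs.length ≤ s) {z : ι → ℂ} {w : List ℂ} (hz : Rep X R k z w)
    (h0 : ∀ a, k ≤ a → a < s → z (R a) = 0) :
    Rep X R (k + gs.length) (run (fwd X R k gs) z) (allValues w gs) := by
  induction gs generalizing k z w with
  | nil => simpa [fwd, allValues] using hz
  | cons g gs ih =>
    simp only [List.length_cons] at hk
    simp only [fwd, run_append, allValues, List.length_cons]
    rw [run_gateProg h (by omega) hz g]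
    have e : k + (gs.length + 1) = (k + 1) + gs.length := by omega
    rw [e]
    refine ih (by omega) (hz.step h (by omega) (h0 k le_rfl (by omega)) _) ?_
    intro a ha1 ha2
    rw [Function.update_of_ne]
    · exact h0 a (by omega) ha2
    · intro e
      have := h.RR _ ha2 _ (by omega) e
      omega

theorem addr_mem (X : Fin m → ι) (R : ℕ → ι) (k a : ℕ) :
    ∀ r ∈ addr X R k a, r ∈ Set.range X ∪ R '' {a | a < k} := by
  intro r hr
  unfold addr at hr
  split_ifs at hr with h0 h1 h2
  · simp at hr
  · simp only [Option.mem_def, Option.some.injEq] at hr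
    subst hr
    exact Or.inl ⟨_, rfl⟩
  · simp only [Option.mem_def, Option.some.injEq] at hr
    subst hr
    exact Or.inr ⟨_, h2, rfl⟩
  · simp at hr

theorem in_acc {A : Set ι} {dst : ι} (hd : dst ∈ A) (c : ℂ) {o : Option ι} (ho : ∀ r ∈ o, r ∈ A) :
    ∀ t ∈ acc dst c o, t.In A := by
  intro t ht
  cases o with
  | none => simp [acc] at ht
  | some j =>
    simp only [acc, List.mem_singleton] at ht
    subst ht
    exact ⟨hd, ho j rfl⟩

theorem in_gateProg (X : Fin m → ι) (R : ℕ → ι) {k s : ℕ} (hk : k < s) (g : Gate) :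
    ∀ t ∈ gateProg X R k g, t.In (Set.range X ∪ R '' {a | a < s}) := by
  have hR : R k ∈ Set.range X ∪ R '' {a | a < s} := Or.inr ⟨k, hk, rfl⟩
  have ha : ∀ a, ∀ r ∈ addr X R k a, r ∈ Set.range X ∪ R '' {a | a < s} := by
    intro a r hr
    rcases addr_mem X R k a r hr with h1 | ⟨b, hb, rfl⟩
    · exact Or.inl h1
    · exact Or.inr ⟨b, lt_trans hb hk, rfl⟩
  intro t ht
  cases g with
  | add u v =>
    rcases List.mem_append.1 ht with h1 | h1
    · exact in_acc hR _ (ha u) t h1
    · exact in_acc hR _ (ha v) t h1
  | sub u v =>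
    rcases List.mem_append.1 ht with h1 | h1
    · exact in_acc hR _ (ha u) t h1
    · exact in_acc hR _ (ha v) t h1
  | smul c u => exact in_acc hR _ (ha u) t ht

theorem in_fwd (X : Fin m → ι) (R : ℕ → ι) {k s : ℕ} (gs : List Gate) (hk : k + gs.length ≤ s) :
    ∀ t ∈ fwd X R k gs, t.In (Set.range X ∪ R '' {a | a < s}) := by
  induction gs generalizing k with
  | nil => intro t ht; simp [fwd] at ht
  | cons g gs ih =>
    simp only [List.length_cons] at hk
    intro t ht
    rcases List.mem_append.1 ht with h1 | h1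
    · exact in_gateProg X R (by omega) g t h1
    · exact ih (by omega) t h1

/-! ### bounded coefficients -/

/-- all coefficients of the circuit are bounded by `C` -/
def Gate.Bdd (C : ℝ) : Gate → Prop
  | .add _ _ => True
  | .sub _ _ => True
  | .smul c _ => ‖c‖ ≤ C

theorem legal_acc {C : ℝ} {dst : ι} {c : ℂ} (hc : ‖c‖ ≤ C) {o : Option ι}
    (ho : ∀ r ∈ o, r ≠ dst) : ∀ t ∈ acc dst c o, t.Legal C := by
  intro t ht
  cases o with
  | none => simp [acc] at ht
  | some j =>
    simp only [acc, List.mem_singleton] at ht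
    subst ht
    exact ⟨(ho j rfl).symm, hc⟩

theorem legal_fwd {X Y : Fin m → ι} {R : ℕ → ι} {s : ℕ} (h : Setup X Y R s) {C : ℝ}
    (hC : 1 ≤ C) (gs : List Gate) {k : ℕ} (hk : k + gs.length ≤ s) (hg : ∀ g ∈ gs, g.Bdd C) :
    ∀ t ∈ fwd X R k gs, t.Legal C := by
  have hC1 : ‖(1 : ℂ)‖ ≤ C := by simpa using hC
  have hC2 : ‖(-1 : ℂ)‖ ≤ C := by simpa using hC
  induction gs generalizing k with
  | nil => intro t ht; simp [fwd] at ht
  | cons g gs ih =>
    simp only [List.length_cons] at hk
    intro t ht
    rcases List.mem_append.1 ht with h1 | h1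
    · have hn := addr_ne_of_lt h (k := k) (by omega)
      have hgb := hg g List.mem_cons_self
      cases g with
      | add u v =>
        rcases List.mem_append.1 h1 with h2 | h2
        · exact legal_acc hC1 (hn u) t h2
        · exact legal_acc hC1 (hn v) t h2
      | sub u v =>
        rcases List.mem_append.1 h1 with h2 | h2
        · exact legal_acc hC1 (hn u) t h2
        · exact legal_acc hC2 (hn v) t h2
      | smul c u => exact legal_acc hgb (hn u) t h1
    · exact ih (by omega) (fun g hg' => hg g (List.mem_cons_of_mem _ hg')) t h1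

/-! ### the output additions -/

/-- the program `Y_i += c * (value with address out i)` -/
def outProg (X Y : Fin m → ι) (R : ℕ → ι) (s : ℕ) (out : Fin m → ℕ) (c : ℂ) :
    List (Step ι) :=
  (List.finRange m).flatMap fun i => acc (Y i) c (addr X R s (out i))

/-- what is added by `outProg` -/
noncomputable def delta (X Y : Fin m → ι) (R : ℕ → ι) (s : ℕ) (out : Fin m → ℕ) (c : ℂ)
    (z : ι → ℂ) : ι → ℂ :=
  ∑ i : Fin m, Pi.single (Y i) (c * rd z (addr X R s (out i)))

theorem addr_ne_Y {X Y : Fin m → ι} {R : ℕ → ι} {s : ℕ} (h : Setup X Y R s) (a : ℕ) (i : Fin m) :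
    ∀ r ∈ addr X R s a, r ≠ Y i := by
  intro r hr
  rcases addr_mem X R s a r hr with ⟨j, rfl⟩ | ⟨b, hb, rfl⟩
  · exact h.XY j i
  · exact (h.YR i b hb).symm

theorem run_outProg {X Y : Fin m → ι} {R : ℕ → ι} {s : ℕ} (h : Setup X Y R s)
    (out : Fin m → ℕ) (c : ℂ) (z : ι → ℂ) :
    run (outProg X Y R s out c) z = z + delta X Y R s out c z := by
  have key : ∀ (l : List (Fin m)) (z : ι → ℂ),
      run (l.flatMap fun i => acc (Y i) c (addr X R s (out i))) z =
        z + (l.map fun i => Pi.single (Y i) (c * rd z (addr X R s (out i)))).sum := by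
    intro l
    induction l with
    | nil => intro z; simp
    | cons a l ih =>
      intro z
      rw [List.flatMap_cons, run_append, ih, run_acc, List.map_cons, List.sum_cons]
      have e : ∀ i, rd (Function.update z (Y a) (z (Y a) + c * rd z (addr X R s (out a))))
          (addr X R s (out i)) = rd z (addr X R s (out i)) := fun i =>
        rd_update (addr_ne_Y h _ a)
      simp only [e]
      rw [← add_assoc]
      congr 1
      funext r
      by_cases hr : r = Y a
      · subst hr; simp
      · simp [Function.update_of_ne hr, Pi.single_eq_of_ne hr]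
  have := key (List.finRange m) z
  unfold outProg delta
  rw [this]
  congr 1

theorem delta_apply_Y {X Y : Fin m → ι} {R : ℕ → ι} {s : ℕ} (h : Setup X Y R s)
    (out : Fin m → ℕ) (c : ℂ) (z : ι → ℂ) (i : Fin m) :
    delta X Y R s out c z (Y i) = c * rd z (addr X R s (out i)) := by
  unfold delta
  rw [Finset.sum_apply, Finset.sum_eq_single i]
  · simp
  · intro j _ hj
    exact Pi.single_eq_of_ne (fun e => hj (h.YY e).symm) _
  · simp

theorem delta_apply_of_ne {X Y : Fin m → ι} {R : ℕ → ι} {s : ℕ}
    (out : Fin m → ℕ) (c : ℂ) (z : ι → ℂ) {r : ι} (hr : ∀ i, Y i ≠ r) :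
    delta X Y R s out c z r = 0 := by
  unfold delta
  rw [Finset.sum_apply]
  refine Finset.sum_eq_zero fun i _ => Pi.single_eq_of_ne (hr i).symm _

theorem delta_add (X Y : Fin m → ι) (R : ℕ → ι) (s : ℕ) (out : Fin m → ℕ) (c : ℂ)
    (z z' : ι → ℂ) :
    delta X Y R s out c (z + z') = delta X Y R s out c z + delta X Y R s out c z' := by
  unfold delta
  rw [← Finset.sum_add_distrib]
  refine Finset.sum_congr rfl fun i _ => ?_
  rw [rd_add, mul_add, Pi.single_add]

theorem delta_neg (X Y : Fin m → ι) (R : ℕ → ι) (s : ℕ) (out : Fin m → ℕ) (c : ℂ)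
    (z : ι → ℂ) :
    delta X Y R s out (-c) z = - delta X Y R s out c z := by
  unfold delta
  rw [← Finset.sum_neg_distrib]
  refine Finset.sum_congr rfl fun i _ => ?_
  rw [neg_mul, Pi.single_neg]

theorem delta_eq_zero {X Y : Fin m → ι} {R : ℕ → ι} {s : ℕ} (out : Fin m → ℕ)
    (c : ℂ) {z : ι → ℂ} (hz : ∀ r ∈ Set.range X ∪ R '' {a | a < s}, z r = 0) :
    delta X Y R s out c z = 0 := by
  unfold delta
  refine Finset.sum_eq_zero fun i _ => ?_
  have : rd z (addr X R s (out i)) = 0 := by
    have hm := addr_mem X R s (out i)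
    cases ho : addr X R s (out i) with
    | none => rfl
    | some r => exact hz r (hm r ho)
  rw [this, mul_zero, Pi.single_zero]

theorem legal_outProg {X Y : Fin m → ι} {R : ℕ → ι} {s : ℕ} (h : Setup X Y R s)
    (out : Fin m → ℕ) {c : ℂ} {C : ℝ} (hc : ‖c‖ ≤ C) :
    ∀ t ∈ outProg X Y R s out c, t.Legal C := by
  intro t ht
  unfold outProg at ht
  rw [List.mem_flatMap] at ht
  obtain ⟨i, _, hi⟩ := ht
  exact legal_acc hc (addr_ne_Y h _ i) t hi

theorem length_outProg_le (X Y : Fin m → ι) (R : ℕ → ι) (s : ℕ) (out : Fin m → ℕ) (c : ℂ) :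
    (outProg X Y R s out c).length ≤ m := by
  have key : ∀ l : List (Fin m),
      (l.flatMap fun i => acc (Y i) c (addr X R s (out i))).length ≤ l.length := by
    intro l
    induction l with
    | nil => simp
    | cons a l ih =>
      have := length_acc_le (Y a) c (addr X R s (out a))
      rw [List.flatMap_cons, List.length_append, List.length_cons]
      omega
  have := key (List.finRange m)
  rwa [List.length_finRange] at this

/-! ### compute, add, uncompute -/

/-- compute the circuit, add the outputs, uncompute -/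
noncomputable def cau (X Y : Fin m → ι) (R : ℕ → ι) (gs : List Gate) (out : Fin m → ℕ) (c : ℂ) :
    List (Step ι) :=
  fwd X R 0 gs ++ (outProg X Y R gs.length out c ++ invProg (fwd X R 0 gs))

theorem legal_cau {X Y : Fin m → ι} {R : ℕ → ι} {gs : List Gate} (h : Setup X Y R gs.length)
    (out : Fin m → ℕ) {c : ℂ} {C : ℝ} (hC : 1 ≤ C) (hc : ‖c‖ ≤ C) (hg : ∀ g ∈ gs, g.Bdd C) :
    ∀ t ∈ cau X Y R gs out c, t.Legal C := by
  intro t ht
  have hf := legal_fwd h hC gs (k := 0) (by omega) hg
  rcases List.mem_append.1 ht with h1 | h1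
  · exact hf t h1
  · rcases List.mem_append.1 h1 with h2 | h2
    · exact legal_outProg h out hc t h2
    · exact legal_invProg hf t h2

theorem length_cau_le (X Y : Fin m → ι) (R : ℕ → ι) (gs : List Gate) (out : Fin m → ℕ) (c : ℂ) :
    (cau X Y R gs out c).length ≤ 4 * gs.length + m := by
  have h1 := length_fwd_le X R 0 gs
  have h2 := length_outProg_le X Y R gs.length out c
  simp only [cau, List.length_append, length_invProg]
  omega

theorem run_cau {X Y : Fin m → ι} {R : ℕ → ι} {gs : List Gate} (h : Setup X Y R gs.length)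
    (out : Fin m → ℕ) (c : ℂ) {C : ℝ} (hC : 1 ≤ C) (hg : ∀ g ∈ gs, g.Bdd C) (z : ι → ℂ) :
    run (cau X Y R gs out c) z =
      z + delta X Y R gs.length out c (run (fwd X R 0 gs) z) := by
  have hf := legal_fwd h hC gs (k := 0) (by omega) hg
  have hin := in_invProg (in_fwd X R gs (k := 0) (s := gs.length) (by omega))
  rw [cau, run_append, run_append, run_outProg h, run_add, run_invProg hf]
  congr 1
  refine run_eq_of_vanish hin fun r hr => ?_
  refine delta_apply_of_ne out c _ fun i e => ?_
  rcases hr with ⟨j, rfl⟩ | ⟨b, hb, rfl⟩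
  · exact h.XY j i e.symm
  · exact h.YR i b hb e

/-- negate the input registers -/
def negProg (X : Fin m → ι) : List (Step ι) :=
  (List.finRange m).map fun i => Step.scale (X i) (-1)

theorem run_negProg {X : Fin m → ι} (hX : Function.Injective X) (z : ι → ℂ) (i : Fin m) :
    run (negProg X) z (X i) = - z (X i) := by
  have := run_scales hX (fun _ => (-1 : ℂ)) (List.finRange m) (List.nodup_finRange m) z
    (List.mem_finRange i)
  simpa [negProg] using this

theorem run_negProg_of_ne {X : Fin m → ι} (z : ι → ℂ) {r : ι} (hr : ∀ i, X i ≠ r) :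
    run (negProg X) z r = z r :=
  run_scales_of_notMem X (fun _ => (-1 : ℂ)) (List.finRange m) z fun i _ => hr i

theorem legal_negProg (X : Fin m → ι) {C : ℝ} (hC : 1 ≤ C) : ∀ t ∈ negProg X, t.Legal C := by
  intro t ht
  unfold negProg at ht
  rw [List.mem_map] at ht
  obtain ⟨i, _, rfl⟩ := ht
  refine ⟨by norm_num, by simpa using hC, ?_⟩
  rw [inv_neg, inv_one, norm_neg, norm_one]
  exact hC

/-- the full program for `y += 2 c v(x)` with dirty work registers -/
noncomputable def addProg (X Y : Fin m → ι) (R : ℕ → ι) (gs : List Gate) (out : Fin m → ℕ)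
    (c : ℂ) : List (Step ι) :=
  cau X Y R gs out c ++ (negProg X ++ (cau X Y R gs out (-c) ++ negProg X))

theorem legal_addProg {X Y : Fin m → ι} {R : ℕ → ι} {gs : List Gate} (h : Setup X Y R gs.length)
    (out : Fin m → ℕ) {c : ℂ} {C : ℝ} (hC : 1 ≤ C) (hc : ‖c‖ ≤ C) (hg : ∀ g ∈ gs, g.Bdd C) :
    ∀ t ∈ addProg X Y R gs out c, t.Legal C := by
  intro t ht
  rcases List.mem_append.1 ht with h1 | h1
  · exact legal_cau h out hC hc hg t h1
  · rcases List.mem_append.1 h1 with h2 | h2
    · exact legal_negProg X hC t h2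
    · rcases List.mem_append.1 h2 with h3 | h3
      · exact legal_cau h out hC (by rwa [norm_neg]) hg t h3
      · exact legal_negProg X hC t h3

theorem length_addProg_le (X Y : Fin m → ι) (R : ℕ → ι) (gs : List Gate) (out : Fin m → ℕ)
    (c : ℂ) : (addProg X Y R gs out c).length ≤ 8 * gs.length + 4 * m := by
  have h1 := length_cau_le X Y R gs out c
  have h2 := length_cau_le X Y R gs out (-c)
  simp only [addProg, List.length_append, negProg, List.length_map, List.length_finRange]
  omega

/-- the part of the state in the input registers -/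
noncomputable def inpPart (X : Fin m → ι) (z : ι → ℂ) : ι → ℂ :=
  open Classical in fun r => if r ∈ Set.range X then z r else 0

theorem run_addProg {X Y : Fin m → ι} {R : ℕ → ι} {gs : List Gate} (h : Setup X Y R gs.length)
    (out : Fin m → ℕ) (c : ℂ) {C : ℝ} (hC : 1 ≤ C) (hg : ∀ g ∈ gs, g.Bdd C) (z : ι → ℂ) :
    run (addProg X Y R gs out c) z =
      z + ∑ i : Fin m, Pi.single (Y i)
        (2 * c * (allValues (0 :: List.ofFn (z ∘ X)) gs).getD (out i) 0) := by
  classical
  set A := run (fwd X R 0 gs) with hA
  set D := delta X Y R gs.length out c with hD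
  set S := run (negProg X) with hS
  -- `S` fixes vectors supported on `Y`
  have hSadd : ∀ u v, S (u + v) = S u + S v := fun u v => run_add _ _ _
  have hAadd : ∀ u v, A (u + v) = A u + A v := fun u v => run_add _ _ _
  have hSD : ∀ u, S (D u) = D u := by
    intro u
    funext r
    by_cases hr : ∃ i, X i = r
    · obtain ⟨i, rfl⟩ := hr
      rw [hS, run_negProg h.XX, hD, delta_apply_of_ne out c u (fun j e => h.XY i j e.symm),
        neg_zero]
    · rw [hS, run_negProg_of_ne _ (fun i e => hr ⟨i, e⟩)]
  have hDY : ∀ u, ∀ r ∈ Set.range X ∪ R '' {a | a < gs.length}, D u r = 0 := by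
    intro u r hr
    refine delta_apply_of_ne out c _ fun i e => ?_
    rcases hr with ⟨j, rfl⟩ | ⟨b, hb, rfl⟩
    · exact h.XY j i e.symm
    · exact h.YR i b hb e
  have hAD : ∀ u, A (D u) = D u := fun u =>
    run_eq_of_vanish (in_fwd X R gs (k := 0) (s := gs.length) (by omega)) (hDY u)
  have hDD : ∀ u, D (D u) = 0 := fun u => delta_eq_zero out c (hDY u)
  have hSS : ∀ u, S (S u) = u := by
    intro u
    funext r
    by_cases hr : ∃ i, X i = r
    · obtain ⟨i, rfl⟩ := hr
      rw [hS, run_negProg h.XX, run_negProg h.XX, neg_neg]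
    · rw [hS, run_negProg_of_ne _ (fun i e => hr ⟨i, e⟩),
        run_negProg_of_ne _ (fun i e => hr ⟨i, e⟩)]
  have hDneg : ∀ u, delta X Y R gs.length out (-c) u = - D u := fun u => delta_neg _ _ _ _ _ _ _
  have hDadd : ∀ u v, D (u + v) = D u + D v := fun u v => delta_add _ _ _ _ _ _ _ _
  have hSneg : ∀ u, S (-u) = - S u := by
    intro u
    have := run_smul (negProg X) (-1) u
    simpa [hS] using this
  -- the whole program
  have hrun : run (addProg X Y R gs out c) z = z + (D (A z) - D (A (S z))) := by
    rw [addProg, run_append, run_append, run_append, run_cau h out c hC hg,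
      run_cau h out (-c) hC hg, hDneg]
    change S (S (z + D (A z)) + -D (A (S (z + D (A z))))) = _
    rw [hSadd, hSS, hSneg, hSD, hSadd z, hSD, hAadd, hAD, hDadd, hDD, add_zero]
    abel
  -- the difference
  have hdiff : D (A z) - D (A (S z)) = D (A (inpPart X z)) + D (A (inpPart X z)) := by
    have e : z = S z + (inpPart X z + inpPart X z) := by
      funext r
      by_cases hr : ∃ i, X i = r
      · obtain ⟨i, rfl⟩ := hr
        simp only [Pi.add_apply]
        rw [hS, run_negProg h.XX]
        simp [inpPart]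
      · simp only [Pi.add_apply]
        rw [hS, run_negProg_of_ne _ (fun i e => hr ⟨i, e⟩)]
        have : r ∉ Set.range X := hr
        simp [inpPart, this]
    conv_lhs => rw [e]
    have e' : S (S z + (inpPart X z + inpPart X z)) = S z := by rw [← e]
    rw [e', hAadd, hAadd, hDadd, hDadd]
    abel
  rw [hrun, hdiff]
  congr 1
  have hrep : Rep X R 0 (inpPart X z) (0 :: List.ofFn (z ∘ X)) := by
    refine ⟨by simp; omega, by simp, ?_, by intro a ha; omega⟩
    intro i
    have : (0 :: List.ofFn (z ∘ X)).getD (1 + (i : ℕ)) 0 = z (X i) := by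
      rw [add_comm]
      simp
    rw [this]
    simp [inpPart]
  have hz0 : ∀ a, 0 ≤ a → a < gs.length → inpPart X z (R a) = 0 := by
    intro a _ ha
    have : R a ∉ Set.range X := by
      rintro ⟨i, e⟩
      exact h.XR i a ha e
    simp [inpPart, this]
  have hfin := run_fwd h gs (k := 0) (by omega) hrep hz0
  rw [zero_add] at hfin
  rw [hD]
  unfold delta
  rw [← Finset.sum_add_distrib]
  refine Finset.sum_congr rfl fun i _ => ?_
  rw [← Pi.single_add, ← hfin.read]
  congr 1
  ring

theorem run_addProg_Y {X Y : Fin m → ι} {R : ℕ → ι} {gs : List Gate} (h : Setup X Y R gs.length)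
    (out : Fin m → ℕ) (c : ℂ) {C : ℝ} (hC : 1 ≤ C) (hg : ∀ g ∈ gs, g.Bdd C) (z : ι → ℂ)
    (i : Fin m) :
    run (addProg X Y R gs out c) z (Y i) =
      z (Y i) + 2 * c * (allValues (0 :: List.ofFn (z ∘ X)) gs).getD (out i) 0 := by
  rw [run_addProg h out c hC hg, Pi.add_apply, Finset.sum_apply, Finset.sum_eq_single i]
  · simp
  · intro j _ hj
    exact Pi.single_eq_of_ne (fun e => hj (h.YY e).symm) _
  · simp

theorem run_addProg_of_ne {X Y : Fin m → ι} {R : ℕ → ι} {gs : List Gate}
    (h : Setup X Y R gs.length)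
    (out : Fin m → ℕ) (c : ℂ) {C : ℝ} (hC : 1 ≤ C) (hg : ∀ g ∈ gs, g.Bdd C) (z : ι → ℂ)
    {r : ι} (hr : ∀ i, Y i ≠ r) :
    run (addProg X Y R gs out c) z r = z r := by
  rw [run_addProg h out c hC hg, Pi.add_apply, Finset.sum_apply, Finset.sum_eq_zero, add_zero]
  intro i _
  exact Pi.single_eq_of_ne (hr i).symm _

end Vale.Agent.P344.InPlace
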