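import Vale.Agent.P344.H951.Defs

/-!
# Circuits as lists of gates (used in proofs only)
-/

namespace Vale.Agent.P344.InPlace

/-- The discrete Fourier matrix `F_n = (ζ_n ^ (j k))`, with `ζ_n = exp (2 π i / n)`. -/
noncomputable def dftMatrix (n : ℕ) : Matrix (Fin n) (Fin n) ℂ :=
  Matrix.of fun j k => Complex.exp (2 * Real.pi * Complex.I / n) ^ (j.val * k.val)

theorem dft_eq_mulVec (n : ℕ) (j : Fin n) (x : Fin n → ℂ) :
    dft n j x = ((dftMatrix n).mulVec x) j := rfl

/-- A gate of a linear circuit with `n` inputs.  Values are addressed by numbers: `0` is the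
constant `0`, `1, …, n` are the inputs `x_0, …, x_{n-1}`, and `n + 1, n + 2, …` are the gates in
the order of the circuit. -/
inductive Gate where
  /-- the sum of two values -/
  | add (u v : ℕ)
  /-- the difference of two values -/
  | sub (u v : ℕ)
  /-- a constant times a value -/
  | smul (c : ℂ) (u : ℕ)

/-- The value of a gate, when `w` lists the constant, the inputs and the values of all earlier
gates (an address outside the list reads the constant `0`). -/
noncomputable def Gate.value (w : List ℂ) : Gate → ℂ
  | .add u v => w.getD u 0 + w.getD v 0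
  | .sub u v => w.getD u 0 - w.getD v 0
  | .smul c u => c * w.getD u 0

/-- The list of all values of a circuit: each gate in turn appends its value to the list. -/
noncomputable def allValues (w : List ℂ) : List Gate → List ℂ
  | [] => w
  | g :: gs => allValues (w ++ [g.value w]) gs

/-- The circuit `gs` with output addresses `out` computes the linear map `x ↦ A x`. -/
def CircuitComputes {n : ℕ} (gs : List Gate) (out : Fin n → ℕ) (A : Matrix (Fin n) (Fin n) ℂ) :
    Prop :=
  ∀ x : Fin n → ℂ, ∀ i, (allValues (0 :: List.ofFn x) gs).getD (out i) 0 = (A.mulVec x) i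

theorem allValues_append (w : List ℂ) (gs gs' : List Gate) :
    allValues w (gs ++ gs') = allValues (allValues w gs) gs' := by
  induction gs generalizing w with
  | nil => rfl
  | cons g gs ih => simp [allValues, ih]

theorem length_allValues (w : List ℂ) (gs : List Gate) :
    (allValues w gs).length = w.length + gs.length := by
  induction gs generalizing w with
  | nil => simp [allValues]
  | cons g gs ih => simp [allValues, ih]; omega

/-- a set-based circuit gives a list of gates -/
theorem gates_of_steps {n : ℕ} {s : ℕ} {V : Set (ℕ × ((Fin n → ℂ) → ℂ))}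
    (h : Steps Set.univ (inputs (Fin n)) s V) :
    ∃ gs : List Gate, gs.length = s ∧ ∀ d u, (d, u) ∈ V →
      ∃ a < 1 + n + gs.length, ∀ x : Fin n → ℂ,
        (allValues (0 :: List.ofFn x) gs).getD a 0 = u x := by
  have hold : ∀ (gs : List Gate) (g : Gate) (a : ℕ), a < 1 + n + gs.length →
      ∀ x : Fin n → ℂ, (allValues (0 :: List.ofFn x) (gs ++ [g])).getD a 0 =
        (allValues (0 :: List.ofFn x) gs).getD a 0 := by
    intro gs g a ha x
    rw [allValues_append]
    simp only [allValues]
    rw [List.getD_append]
    rw [length_allValues]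
    simp only [List.length_cons, List.length_ofFn]
    omega
  have hnew : ∀ (gs : List Gate) (g : Gate) (x : Fin n → ℂ),
      (allValues (0 :: List.ofFn x) (gs ++ [g])).getD (1 + n + gs.length) 0 =
        g.value (allValues (0 :: List.ofFn x) gs) := by
    intro gs g x
    rw [allValues_append]
    simp only [allValues]
    rw [List.getD_append_right]
    · rw [length_allValues]
      simp only [List.length_cons, List.length_ofFn]
      rw [show 1 + n + gs.length - (n + 1 + gs.length) = 0 by omega]
      simp
    · rw [length_allValues]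
      simp only [List.length_cons, List.length_ofFn]
      omega
  induction h with
  | zero =>
    refine ⟨[], rfl, ?_⟩
    rintro d u ⟨_, h⟩
    rcases h with h | ⟨k, h⟩
    · refine ⟨0, by omega, fun x => ?_⟩
      simp only at h
      rw [h]
      simp [allValues]
    · refine ⟨k.val + 1, by have := k.2; simp; omega, fun x => ?_⟩
      simp only at h
      rw [h]
      simp [allValues]
  | @add s V d e u v _ hu hv ih =>
    obtain ⟨gs, h1, h2⟩ := ih
    obtain ⟨a, ha, hau⟩ := h2 _ _ hu
    obtain ⟨b, hb, hbv⟩ := h2 _ _ hv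
    refine ⟨gs ++ [.add a b], by simp [h1], ?_⟩
    intro d' w hw
    rcases Set.mem_insert_iff.1 hw with h | h
    · refine ⟨1 + n + gs.length, by simp, fun x => ?_⟩
      have hw' : w = _ := (Prod.ext_iff.1 h).2
      rw [hnew, Gate.value, hau, hbv, hw']
      rfl
    · obtain ⟨c, hc, hcw⟩ := h2 _ _ h
      refine ⟨c, by simp; omega, fun x => ?_⟩
      rw [hold gs _ c hc, hcw]
  | @sub s V d e u v _ hu hv ih =>
    obtain ⟨gs, h1, h2⟩ := ih
    obtain ⟨a, ha, hau⟩ := h2 _ _ hu
    obtain ⟨b, hb, hbv⟩ := h2 _ _ hv
    refine ⟨gs ++ [.sub a b], by simp [h1], ?_⟩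
    intro d' w hw
    rcases Set.mem_insert_iff.1 hw with h | h
    · refine ⟨1 + n + gs.length, by simp, fun x => ?_⟩
      have hw' : w = _ := (Prod.ext_iff.1 h).2
      rw [hnew, Gate.value, hau, hbv, hw']
      rfl
    · obtain ⟨c, hc, hcw⟩ := h2 _ _ h
      refine ⟨c, by simp; omega, fun x => ?_⟩
      rw [hold gs _ c hc, hcw]
  | @smul s V d u c _ hu _ ih =>
    obtain ⟨gs, h1, h2⟩ := ih
    obtain ⟨a, ha, hau⟩ := h2 _ _ hu
    refine ⟨gs ++ [.smul c a], by simp [h1], ?_⟩
    intro d' w hw
    rcases Set.mem_insert_iff.1 hw with h | h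
    · refine ⟨1 + n + gs.length, by simp, fun x => ?_⟩
      have hw' : w = _ := (Prod.ext_iff.1 h).2
      rw [hnew, Gate.value, hau, hw']
      rfl
    · obtain ⟨b, hb, hbw⟩ := h2 _ _ h
      refine ⟨b, by simp; omega, fun x => ?_⟩
      rw [hold gs _ b hb, hbw]

theorem circuit_of_computes {n s : ℕ} (h : Computes Set.univ ⊤ (dft n) s) :
    ∃ (gs : List Gate) (out : Fin n → ℕ), gs.length = s ∧
      CircuitComputes gs out (dftMatrix n) := by
  obtain ⟨V, hV, hF⟩ := h
  obtain ⟨gs, h1, h2⟩ := gates_of_steps hV
  choose d hd hdV using hF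
  choose a ha hax using fun j => h2 _ _ (hdV j)
  exact ⟨gs, a, h1, fun x j => by rw [hax j x, dft_eq_mulVec]⟩

end Vale.Agent.P344.InPlace
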