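import Vale.Agent.P344.H951.Small

/-!
# Sequential and parallel composition of in-place programs
-/

set_option linter.unusedSectionVars false

namespace Vale.Agent.P344.InPlace

open Matrix

section good
variable {ι κ : Type*} [DecidableEq ι] [DecidableEq κ] [Fintype ι] [Fintype κ]

/-- `T` has, up to the order of the registers at the end, an in-place program with at most `n`
steps, depth at most `d`, coefficients bounded by `C`, all of whose intermediate transformations
have condition number at most `K` -/
def Good (C K : ℝ) (n d : ℕ) (T : (ι → ℂ) → (ι → ℂ)) : Prop :=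
  ∃ (p : List (Step ι)) (σ : Equiv.Perm ι), p.length ≤ n ∧ (∀ s ∈ p, s.Legal C) ∧
    (∀ (τ : ι → ℕ) (t : ℕ), (∀ r, τ r ≤ t) → ∀ r, clock p τ r ≤ t + d) ∧ CondLe K p ∧
    ∀ z i, run p z (σ i) = T z i

theorem Good.mono {C C' K K' : ℝ} {n n' d d' : ℕ} {T : (ι → ℂ) → (ι → ℂ)} (h : Good C K n d T)
    (hC : C ≤ C') (hK0 : 0 ≤ K) (hK : K ≤ K') (hn : n ≤ n') (hd : d ≤ d') :
    Good C' K' n' d' T := by
  obtain ⟨p, σ, h1, h2, h3, h4, h5⟩ := h
  refine ⟨p, σ, h1.trans hn, fun s hs => (h2 s hs).mono hC, ?_, ?_, h5⟩
  · intro τ t ht r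
    exact (h3 τ t ht r).trans (by omega)
  · intro q hq
    obtain ⟨α, ha, hb⟩ := h4 q hq
    refine ⟨α, ha, fun x => ⟨(hb x).1, (hb x).2.trans ?_⟩⟩
    have := sqNorm_nonneg x
    gcongr

theorem Good.mono_n {C K : ℝ} {n n' d d' : ℕ} {T : (ι → ℂ) → (ι → ℂ)} (h : Good C K n d T)
    (hn : n ≤ n') (hd : d ≤ d') : Good C K n' d' T := by
  obtain ⟨p, σ, h1, h2, h3, h4, h5⟩ := h
  exact ⟨p, σ, h1.trans hn, h2, fun τ t ht r => (h3 τ t ht r).trans (by omega), h4, h5⟩

theorem isPre_map_iff {α β : Type*} (f : α → β) (l : List α) (r : List β) (h : r <+: l.map f) :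
    ∃ l', l' <+: l ∧ r = l'.map f := by
  refine ⟨l.take r.length, List.take_prefix _ _, ?_⟩
  rw [List.map_take]
  exact List.prefix_iff_eq_take.1 h

theorem isPre_append {α : Type*} (l l' r : List α) (h : r <+: l ++ l') :
    r <+: l ∨ ∃ r', r' <+: l' ∧ r = l ++ r' := by
  rcases List.prefix_or_prefix_of_prefix h (List.prefix_append l l') with h1 | h1
  · exact Or.inl h1
  · obtain ⟨r', rfl⟩ := h1
    exact Or.inr ⟨r', (List.prefix_append_right_inj l).1 h, rfl⟩

theorem Good.comp {C K : ℝ} {n n' d d' : ℕ} {S T : (ι → ℂ) → (ι → ℂ)} (hS : Good C K n d S)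
    (hT : Good C K n' d' T) {ρ : ℝ} (hρ : 0 < ρ) (hSρ : ∀ z, sqNorm (S z) = ρ * sqNorm z) :
    Good C K (n + n') (d + d') (fun z => T (S z)) := by
  obtain ⟨p, σ, p1, p2, p3, p4, p5⟩ := hS
  obtain ⟨q, τ, q1, q2, q3, q4, q5⟩ := hT
  have hpS : ∀ z, run p z ∘ σ = S z := fun z => by funext r; exact p5 z r
  refine ⟨p ++ q.map (Step.map σ), τ.trans σ, ?_, ?_, ?_, ?_, ?_⟩
  · simp only [List.length_append, List.length_map]; omega
  · intro s hs
    rcases List.mem_append.1 hs with h | h
    · exact p2 s h
    · obtain ⟨t, ht, rfl⟩ := List.mem_map.1 h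
      exact (q2 t ht).map σ.injective
  · intro τ' t ht r
    rw [clock_append, clock_map]
    have := q3 (clock p τ' ∘ σ) (t + d) (fun r' => p3 τ' t ht _) (σ.symm r)
    simp only [Function.comp_apply]
    omega
  · intro r hr
    rcases isPre_append _ _ _ hr with h | ⟨r', h1, h2⟩
    · exact p4 r h
    · obtain ⟨q', hq', rfl⟩ := isPre_map_iff _ _ _ h1
      subst h2
      obtain ⟨α, ha, hb⟩ := q4 q' hq'
      refine ⟨α * ρ, mul_pos ha hρ, fun x => ?_⟩
      rw [run_append, run_map_equiv, hpS, sqNorm_comp_equiv σ.symm]
      have h3 := hb (S x)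
      rw [hSρ] at h3
      constructor
      · calc α * ρ * sqNorm x = α * (ρ * sqNorm x) := by ring
          _ ≤ _ := h3.1
      · calc _ ≤ K ^ 2 * α * (ρ * sqNorm x) := h3.2
          _ = K ^ 2 * (α * ρ) * sqNorm x := by ring
  · intro z i
    rw [run_append, run_map_equiv]
    simp only [Function.comp_apply, Equiv.trans_apply, Equiv.symm_apply_apply]
    rw [hpS]
    exact q5 _ _

/-- relabelling the registers -/
theorem Good.relabel {C K : ℝ} {n d : ℕ} {T : (ι → ℂ) → (ι → ℂ)} (h : Good C K n d T)
    (e : ι ≃ κ) : Good C K n d (fun z : κ → ℂ => T (z ∘ e) ∘ e.symm) := by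
  obtain ⟨p, σ, p1, p2, p3, p4, p5⟩ := h
  refine ⟨p.map (Step.map e), e.symm.trans (σ.trans e), by simpa using p1, ?_, ?_, ?_, ?_⟩
  · intro s hs
    obtain ⟨t, ht, rfl⟩ := List.mem_map.1 hs
    exact (p2 t ht).map e.injective
  · intro τ t ht r
    rw [clock_map]
    exact p3 (τ ∘ e) t (fun r' => ht _) _
  · intro r hr
    obtain ⟨q, hq, rfl⟩ := isPre_map_iff _ _ _ hr
    obtain ⟨α, ha, hb⟩ := p4 q hq
    refine ⟨α, ha, fun x => ?_⟩
    rw [run_map_equiv, sqNorm_comp_equiv e.symm]
    have := hb (x ∘ e)
    rwa [sqNorm_comp_equiv e] at this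
  · intro z i
    rw [run_map_equiv]
    simp only [Function.comp_apply, Equiv.trans_apply, Equiv.symm_apply_apply]
    exact p5 _ _

/-- the order of the outputs is free -/
theorem Good.permOut {C K : ℝ} {n d : ℕ} {T : (ι → ℂ) → (ι → ℂ)} (h : Good C K n d T)
    (π : Equiv.Perm ι) : Good C K n d (fun z => T z ∘ π) := by
  obtain ⟨p, σ, p1, p2, p3, p4, p5⟩ := h
  exact ⟨p, π.trans σ, p1, p2, p3, p4, fun z i => by
    simp only [Equiv.trans_apply, Function.comp_apply]; exact p5 z (π i)⟩

theorem Good.congr {C K : ℝ} {n d : ℕ} {T T' : (ι → ℂ) → (ι → ℂ)} (h : Good C K n d T)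
    (e : ∀ z i, T z i = T' z i) : Good C K n d T' := by
  have : T = T' := by funext z i; exact e z i
  rwa [← this]

end good

/-! ### parallel composition -/

section par
variable {α G : Type*} [DecidableEq α] [DecidableEq G]

/-- the part of a step in group `g` -/
def Step.restrict (g : G) : Step (α × G) → Option (Step α)
  | .add i j a => if i.2 = g then some (.add i.1 j.1 a) else none
  | .scale i b => if i.2 = g then some (.scale i.1 b) else none

/-- the step stays within one group -/
def Step.Local : Step (α × G) → Prop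
  | .add i j _ => i.2 = j.2
  | .scale _ _ => True

theorem act_restrict (g : G) {s : Step (α × G)} (hs : s.Local) (z : α × G → ℂ) :
    (fun i => s.act z (i, g)) = match s.restrict g with
      | none => fun i => z (i, g)
      | some t => t.act fun i => z (i, g) := by
  cases s with
  | add i j a =>
    obtain ⟨i, gi⟩ := i
    obtain ⟨j, gj⟩ := j
    simp only [Step.Local] at hs
    subst hs
    by_cases h : gi = g
    · subst h
      simp only [Step.restrict, if_true, Step.act]
      funext r
      by_cases hr : r = i
      · subst hr; simp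
      · have : (r, gi) ≠ (i, gi) := fun e => hr (Prod.ext_iff.1 e).1
        simp [Function.update_of_ne hr, Function.update_of_ne this]
    · simp only [Step.restrict, if_neg h, Step.act]
      funext r
      have : (r, g) ≠ (i, gi) := fun e => h (Prod.ext_iff.1 e).2.symm
      simp [Function.update_of_ne this]
  | scale i b =>
    obtain ⟨i, gi⟩ := i
    by_cases h : gi = g
    · subst h
      simp only [Step.restrict, if_true, Step.act]
      funext r
      by_cases hr : r = i
      · subst hr; simp
      · have : (r, gi) ≠ (i, gi) := fun e => hr (Prod.ext_iff.1 e).1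
        simp [Function.update_of_ne hr, Function.update_of_ne this]
    · simp only [Step.restrict, if_neg h, Step.act]
      funext r
      have : (r, g) ≠ (i, gi) := fun e => h (Prod.ext_iff.1 e).2.symm
      simp [Function.update_of_ne this]

theorem tick_restrict (g : G) {s : Step (α × G)} (hs : s.Local) (τ : α × G → ℕ) :
    (fun i => s.tick τ (i, g)) = match s.restrict g with
      | none => fun i => τ (i, g)
      | some t => t.tick fun i => τ (i, g) := by
  cases s with
  | add i j a =>
    obtain ⟨i, gi⟩ := i
    obtain ⟨j, gj⟩ := j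
    simp only [Step.Local] at hs
    subst hs
    by_cases h : gi = g
    · subst h
      simp only [Step.restrict, if_true, Step.tick]
      funext r
      simp
    · simp only [Step.restrict, if_neg h, Step.tick]
      funext r
      have h' : ¬ g = gi := fun e => h e.symm
      simp [h']
  | scale i b =>
    obtain ⟨i, gi⟩ := i
    by_cases h : gi = g
    · subst h
      simp only [Step.restrict, if_true, Step.tick]
      funext r
      simp
    · simp only [Step.restrict, if_neg h, Step.tick]
      funext r
      have h' : ¬ g = gi := fun e => h e.symm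
      simp [h']

theorem run_restrict (g : G) {p : List (Step (α × G))} (hp : ∀ s ∈ p, s.Local)
    (z : α × G → ℂ) :
    (fun i => run p z (i, g)) = run (p.filterMap (Step.restrict g)) fun i => z (i, g) := by
  induction p generalizing z with
  | nil => rfl
  | cons s p ih =>
    have h1 := ih (fun t ht => hp t (List.mem_cons_of_mem _ ht)) (s.act z)
    have h2 := act_restrict g (hp s List.mem_cons_self) z
    rw [run_cons]
    rw [h1, h2]
    cases h : s.restrict g with
    | none => rw [List.filterMap_cons_none h]
    | some t => rw [List.filterMap_cons_some h, run_cons]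

theorem clock_restrict (g : G) {p : List (Step (α × G))} (hp : ∀ s ∈ p, s.Local)
    (τ : α × G → ℕ) :
    (fun i => clock p τ (i, g)) = clock (p.filterMap (Step.restrict g)) fun i => τ (i, g) := by
  induction p generalizing τ with
  | nil => rfl
  | cons s p ih =>
    have h1 := ih (fun t ht => hp t (List.mem_cons_of_mem _ ht)) (s.tick τ)
    have h2 := tick_restrict g (hp s List.mem_cons_self) τ
    rw [clock_cons]
    rw [h1, h2]
    cases h : s.restrict g with
    | none => rw [List.filterMap_cons_none h]
    | some t => rw [List.filterMap_cons_some h, clock_cons]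

/-- place a program into group `g` -/
def place (g : G) (p : List (Step α)) : List (Step (α × G)) := p.map (Step.map fun i => (i, g))

theorem restrict_place_self (g : G) (p : List (Step α)) :
    (place g p).filterMap (Step.restrict g) = p := by
  unfold place
  rw [List.filterMap_map]
  have : (Step.restrict g ∘ Step.map fun i : α => (i, g)) = some := by
    funext s
    cases s <;> simp [Step.map, Step.restrict]
  rw [this, List.filterMap_some]

theorem restrict_place_ne {g g' : G} (h : g' ≠ g) (p : List (Step α)) :
    (place g' p).filterMap (Step.restrict g) = [] := by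
  unfold place
  rw [List.filterMap_map]
  have : (Step.restrict g ∘ Step.map fun i : α => (i, g')) = fun _ => none := by
    funext s
    cases s <;> simp [Step.map, Step.restrict, h]
  rw [this]
  simp

theorem restrict_flatMap (P : G → List (Step α)) (g : G) (l : List G) (hl : l.Nodup) :
    (l.flatMap fun g' => place g' (P g')).filterMap (Step.restrict g) =
      if g ∈ l then P g else [] := by
  induction l with
  | nil => simp
  | cons a l ih =>
    rw [List.nodup_cons] at hl
    rw [List.flatMap_cons, List.filterMap_append, ih hl.2]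
    by_cases h : a = g
    · subst h
      rw [restrict_place_self, if_neg hl.1]
      simp
    · rw [restrict_place_ne h]
      have h' : ¬ g = a := fun e => h e.symm
      simp [h']

theorem local_place (g : G) (p : List (Step α)) : ∀ s ∈ place g p, s.Local := by
  intro s hs
  unfold place at hs
  obtain ⟨t, _, rfl⟩ := List.mem_map.1 hs
  cases t <;> simp [Step.map, Step.Local]

theorem length_flatMap_place (P : G → List (Step α)) (n : ℕ) (hP : ∀ g, (P g).length ≤ n)
    (l : List G) : (l.flatMap fun g => place g (P g)).length ≤ l.length * n := by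
  induction l with
  | nil => simp
  | cons a l ih =>
    have := hP a
    rw [List.flatMap_cons, List.length_append, List.length_cons, place, List.length_map, add_mul]
    omega

variable [Fintype α] [Fintype G]

theorem sqNorm_prod (z : α × G → ℂ) : sqNorm z = ∑ g, sqNorm fun i => z (i, g) := by
  unfold sqNorm
  rw [Fintype.sum_prod_type_right]

theorem good_par {C K : ℝ} {n : ℕ} {T : G → (α → ℂ) → (α → ℂ)} (h : ∀ g, Small C n (T g))
    (hK : growth C ^ (2 * n) ≤ K ^ 2) :
    Good C K (Fintype.card G * n) n
      (fun (z : α × G → ℂ) (r : α × G) => T r.2 (fun i => z (i, r.2)) r.1) := by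
  classical
  choose P σ h1 h2 h3 using h
  set l : List G := (Finset.univ : Finset G).toList with hl
  have hlmem : ∀ g, g ∈ l := fun g => by simp [hl]
  have hlnodup : l.Nodup := Finset.nodup_toList _
  set p : List (Step (α × G)) := l.flatMap fun g => place g (P g) with hp
  have hloc : ∀ s ∈ p, s.Local := by
    intro s hs
    rw [hp, List.mem_flatMap] at hs
    obtain ⟨g, _, hg⟩ := hs
    exact local_place g (P g) s hg
  have hres : ∀ g, p.filterMap (Step.restrict g) = P g := by
    intro g
    rw [hp, restrict_flatMap P g l hlnodup, if_pos (hlmem g)]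
  refine ⟨p, Equiv.prodCongrLeft σ, ?_, ?_, ?_, ?_, ?_⟩
  · have := length_flatMap_place P n h1 l
    have e : l.length = Fintype.card G := by
      rw [hl, Finset.length_toList, Finset.card_univ]
    rwa [e] at this
  · intro s hs
    rw [hp, List.mem_flatMap] at hs
    obtain ⟨g, _, hg⟩ := hs
    obtain ⟨t, ht, rfl⟩ := List.mem_map.1 hg
    exact (h2 g t ht).map fun i j e => (Prod.ext_iff.1 e).1
  · rintro τ t ht ⟨i, g⟩
    have e : clock p τ (i, g) = _ := congrFun (clock_restrict g hloc τ) i
    rw [e, hres]
    have := clock_le (P g) (fun i => τ (i, g)) t (fun r => ht _) i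
    have := h1 g
    omega
  · intro q hq
    have hg1 : 1 ≤ growth C := one_le_growth C
    have hg0 : 0 < growth C := lt_of_lt_of_le one_pos hg1
    have hqloc : ∀ s ∈ q, s.Local := fun s hs => hloc s (hq.subset hs)
    have hqres : ∀ g, q.filterMap (Step.restrict g) <+: P g := by
      intro g
      have := List.IsPrefix.filterMap (Step.restrict g) hq
      rwa [hres] at this
    have hpart : ∀ (x : α × G → ℂ) (g : G),
        (sqNorm fun i => run q x (i, g)) ≤ growth C ^ n * sqNorm (fun i => x (i, g)) ∧
        sqNorm (fun i => x (i, g)) ≤ growth C ^ n * sqNorm fun i => run q x (i, g) := by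
      intro x g
      rw [run_restrict g hqloc x]
      have hleg : ∀ s ∈ q.filterMap (Step.restrict g), s.Legal C := fun s hs =>
        h2 g s ((hqres g).subset hs)
      have hlen : (q.filterMap (Step.restrict g)).length ≤ n := (hqres g).length_le.trans (h1 g)
      have hpow : growth C ^ (q.filterMap (Step.restrict g)).length ≤ growth C ^ n :=
        pow_le_pow_right₀ hg1 hlen
      exact ⟨(sqNorm_run_le hleg _).trans (mul_le_mul_of_nonneg_right hpow (sqNorm_nonneg _)),
        (sqNorm_le_run hleg _).trans (mul_le_mul_of_nonneg_right hpow (sqNorm_nonneg _))⟩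
    refine ⟨(growth C ^ n)⁻¹, inv_pos.2 (pow_pos hg0 n), fun x => ⟨?_, ?_⟩⟩
    · rw [inv_mul_le_iff₀ (pow_pos hg0 n), sqNorm_prod x, sqNorm_prod (run q x), Finset.mul_sum]
      exact Finset.sum_le_sum fun g _ => (hpart x g).2
    · have hs : sqNorm (run q x) ≤ growth C ^ n * sqNorm x := by
        rw [sqNorm_prod x, sqNorm_prod (run q x), Finset.mul_sum]
        exact Finset.sum_le_sum fun g _ => (hpart x g).1
      refine hs.trans (mul_le_mul_of_nonneg_right ?_ (sqNorm_nonneg _))
      rw [← div_eq_mul_inv, le_div_iff₀ (pow_pos hg0 n), ← pow_add]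
      rwa [two_mul] at hK
  · rintro z ⟨i, g⟩
    have e : run p z (σ g i, g) = _ := congrFun (run_restrict g hloc z) (σ g i)
    rw [Equiv.prodCongrLeft_apply, e, hres]
    exact h3 g _ i

end par

/-- diagonal scaling -/
theorem good_diag {ι : Type*} [DecidableEq ι] [Fintype ι] {C K : ℝ} (b : ι → ℂ)
    (hb : ∀ i, b i ≠ 0 ∧ ‖b i‖ ≤ C ∧ ‖(b i)⁻¹‖ ≤ C) (hK : growth C ^ 2 ≤ K ^ 2) :
    Good C K (Fintype.card ι) 1 (fun (z : ι → ℂ) i => b i * z i) := by
  have hs : ∀ g : ι, Small C 1 (fun (z : Unit → ℂ) (_ : Unit) => b g * z ()) := by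
    intro g
    refine ⟨[.scale () (b g)], 1, by simp, ?_, ?_⟩
    · intro s hs
      rw [List.mem_singleton] at hs
      subst hs
      exact hb g
    · intro z i
      simp [Step.act]
  have h := (good_par (G := ι) hs (K := K) (by simpa using hK)).relabel (Equiv.punitProd ι)
  refine (h.mono_n (by simp) le_rfl).congr ?_
  intro z i
  simp [Equiv.punitProd]

end Vale.Agent.P344.InPlace
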