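import Vale.Agent.P344.H951.Gates

/-!
# Basic facts on in-place programs
-/

set_option linter.unusedSectionVars false

namespace Vale.Agent.P344.InPlace

section basic
variable {ι κ : Type*} [DecidableEq ι] [DecidableEq κ]

@[simp] theorem run_nil (x : ι → ℂ) : run ([] : List (Step ι)) x = x := rfl

@[simp] theorem run_cons (s : Step ι) (p : List (Step ι)) (x : ι → ℂ) :
    run (s :: p) x = run p (s.act x) := rfl

theorem run_append (p q : List (Step ι)) (x : ι → ℂ) :
    run (p ++ q) x = run q (run p x) := by
  simp [run, List.foldl_append]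

@[simp] theorem clock_nil (τ : ι → ℕ) : clock ([] : List (Step ι)) τ = τ := rfl

@[simp] theorem clock_cons (s : Step ι) (p : List (Step ι)) (τ : ι → ℕ) :
    clock (s :: p) τ = clock p (s.tick τ) := rfl

theorem clock_append (p q : List (Step ι)) (τ : ι → ℕ) :
    clock (p ++ q) τ = clock q (clock p τ) := by
  simp [clock, List.foldl_append]

theorem Step.act_add (s : Step ι) (x y : ι → ℂ) : s.act (x + y) = s.act x + s.act y := by
  cases s with
  | add i j a =>
    funext r
    by_cases h : r = i
    · subst h; simp [Step.act]; ring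
    · simp [Step.act, Function.update_of_ne h]
  | scale i b =>
    funext r
    by_cases h : r = i
    · subst h; simp [Step.act]; ring
    · simp [Step.act, Function.update_of_ne h]

theorem Step.act_smul (s : Step ι) (c : ℂ) (x : ι → ℂ) : s.act (c • x) = c • s.act x := by
  cases s with
  | add i j a =>
    funext r
    by_cases h : r = i
    · subst h; simp [Step.act]; ring
    · simp [Step.act, Function.update_of_ne h]
  | scale i b =>
    funext r
    by_cases h : r = i
    · subst h; simp [Step.act]; ring
    · simp [Step.act, Function.update_of_ne h]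

theorem run_add (p : List (Step ι)) (x y : ι → ℂ) : run p (x + y) = run p x + run p y := by
  induction p generalizing x y with
  | nil => rfl
  | cons s p ih => simp [Step.act_add, ih]

theorem run_smul (p : List (Step ι)) (c : ℂ) (x : ι → ℂ) : run p (c • x) = c • run p x := by
  induction p generalizing x with
  | nil => rfl
  | cons s p ih => simp [Step.act_smul, ih]

theorem run_zero (p : List (Step ι)) : run p (0 : ι → ℂ) = 0 := by
  have := run_smul p 0 (0 : ι → ℂ)
  simpa using this

theorem run_sub (p : List (Step ι)) (x y : ι → ℂ) : run p (x - y) = run p x - run p y := by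
  have h := run_add p (x - y) y
  rw [sub_add_cancel] at h
  rw [h, add_sub_cancel_right]

/-! ### inverse programs -/

/-- the inverse step -/
noncomputable def Step.inv : Step ι → Step ι
  | .add i j a => .add i j (-a)
  | .scale i b => .scale i b⁻¹

theorem Step.Legal.inv {C : ℝ} {s : Step ι} (h : s.Legal C) : s.inv.Legal C := by
  cases s with
  | add i j a => exact ⟨h.1, by simpa using h.2⟩
  | scale i b => exact ⟨inv_ne_zero h.1, h.2.2, by simpa using h.2.1⟩

theorem Step.act_inv {C : ℝ} {s : Step ι} (h : s.Legal C) (x : ι → ℂ) :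
    s.inv.act (s.act x) = x := by
  cases s with
  | add i j a =>
    have hij : j ≠ i := fun e => h.1 e.symm
    funext r
    by_cases hr : r = i
    · subst hr
      simp only [Step.inv, Step.act, Function.update_self, Function.update_of_ne hij]
      ring
    · simp [Step.act, Step.inv, Function.update_of_ne hr]
  | scale i b =>
    funext r
    by_cases hr : r = i
    · subst hr
      simp [Step.inv, Step.act, h.1]
    · simp [Step.act, Step.inv, Function.update_of_ne hr]

/-- the inverse program -/
noncomputable def invProg (p : List (Step ι)) : List (Step ι) := (p.map Step.inv).reverse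

@[simp] theorem length_invProg (p : List (Step ι)) : (invProg p).length = p.length := by
  simp [invProg]

theorem legal_invProg {C : ℝ} {p : List (Step ι)} (h : ∀ s ∈ p, s.Legal C) :
    ∀ s ∈ invProg p, s.Legal C := by
  intro s hs
  simp only [invProg, List.mem_reverse, List.mem_map] at hs
  obtain ⟨t, ht, rfl⟩ := hs
  exact (h t ht).inv

theorem invProg_cons (s : Step ι) (p : List (Step ι)) :
    invProg (s :: p) = invProg p ++ [s.inv] := by
  simp [invProg]

theorem run_invProg {C : ℝ} {p : List (Step ι)} (h : ∀ s ∈ p, s.Legal C) (x : ι → ℂ) :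
    run (invProg p) (run p x) = x := by
  induction p generalizing x with
  | nil => rfl
  | cons s p ih =>
    simp only [invProg_cons, run_append, run_cons, run_nil]
    rw [ih (fun t ht => h t (List.mem_cons_of_mem _ ht))]
    exact Step.act_inv (h s List.mem_cons_self) x

/-! ### registers mentioned by a program -/

/-- the registers mentioned by a step all lie in `A` -/
def Step.In (A : Set ι) : Step ι → Prop
  | .add i j _ => i ∈ A ∧ j ∈ A
  | .scale i _ => i ∈ A

theorem Step.In.mono {A B : Set ι} (hAB : A ⊆ B) {s : Step ι} (h : s.In A) : s.In B := by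
  cases s with
  | add i j a => exact ⟨hAB h.1, hAB h.2⟩
  | scale i b => exact hAB h

theorem Step.In.inv {A : Set ι} {s : Step ι} (h : s.In A) : s.inv.In A := by
  cases s with
  | add i j a => exact h
  | scale i b => exact h

/-- a step does not change vectors vanishing on the mentioned registers -/
theorem Step.In.act_eq {A : Set ι} {s : Step ι} (h : s.In A) {x : ι → ℂ}
    (hx : ∀ r ∈ A, x r = 0) : s.act x = x := by
  cases s with
  | add i j a =>
    simp only [Step.act, hx j h.2, mul_zero, add_zero, Function.update_eq_self]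
  | scale i b =>
    have : b * x i = x i := by rw [hx i h, mul_zero]
    simp only [Step.act, this, Function.update_eq_self]

theorem run_eq_of_vanish {A : Set ι} {p : List (Step ι)} (h : ∀ s ∈ p, s.In A) {x : ι → ℂ}
    (hx : ∀ r ∈ A, x r = 0) : run p x = x := by
  induction p with
  | nil => rfl
  | cons s p ih =>
    rw [run_cons, (h s List.mem_cons_self).act_eq hx]
    exact ih fun t ht => h t (List.mem_cons_of_mem _ ht)

/-- registers outside `A` are not changed -/
theorem Step.In.act_apply {A : Set ι} {s : Step ι} (h : s.In A) (x : ι → ℂ) {r : ι}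
    (hr : r ∉ A) : s.act x r = x r := by
  cases s with
  | add i j a =>
    have : r ≠ i := fun e => hr (e ▸ h.1)
    simp [Step.act, Function.update_of_ne this]
  | scale i b =>
    have : r ≠ i := fun e => hr (e ▸ h)
    simp [Step.act, Function.update_of_ne this]

theorem run_apply_of_notMem {A : Set ι} {p : List (Step ι)} (h : ∀ s ∈ p, s.In A) (x : ι → ℂ)
    {r : ι} (hr : r ∉ A) : run p x r = x r := by
  induction p generalizing x with
  | nil => rfl
  | cons s p ih =>
    rw [run_cons, ih (fun t ht => h t (List.mem_cons_of_mem _ ht))]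
    exact (h s List.mem_cons_self).act_apply x hr

theorem in_invProg {A : Set ι} {p : List (Step ι)} (h : ∀ s ∈ p, s.In A) :
    ∀ s ∈ invProg p, s.In A := by
  intro s hs
  simp only [invProg, List.mem_reverse, List.mem_map] at hs
  obtain ⟨t, ht, rfl⟩ := hs
  exact (h t ht).inv

/-! ### relabelling registers -/

/-- relabel the registers of a step -/
def Step.map {ι κ : Type*} (e : ι → κ) : Step ι → Step κ
  | .add i j a => .add (e i) (e j) a
  | .scale i b => .scale (e i) b

theorem Step.Legal.map {C : ℝ} {s : Step ι} (h : s.Legal C) {e : ι → κ}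
    (he : Function.Injective e) : (s.map e).Legal C := by
  cases s with
  | add i j a => exact ⟨fun hh => h.1 (he hh), h.2⟩
  | scale i b => exact h

theorem Step.act_map {e : ι → κ} (he : Function.Injective e) (s : Step ι) (x : κ → ℂ) :
    (s.map e).act x ∘ e = s.act (x ∘ e) := by
  cases s with
  | add i j a =>
    simp only [Step.map, Step.act]
    rw [Function.update_comp_eq_of_injective _ he]
    rfl
  | scale i b =>
    simp only [Step.map, Step.act]
    rw [Function.update_comp_eq_of_injective _ he]
    rfl

theorem run_map {e : ι → κ} (he : Function.Injective e) (p : List (Step ι)) (x : κ → ℂ) :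
    run (p.map (Step.map e)) x ∘ e = run p (x ∘ e) := by
  induction p generalizing x with
  | nil => rfl
  | cons s p ih => rw [List.map_cons, run_cons, ih, Step.act_map he, run_cons]

theorem in_range_map (e : ι → κ) (p : List (Step ι)) :
    ∀ s ∈ p.map (Step.map e), s.In (Set.range e) := by
  intro s hs
  obtain ⟨t, _, rfl⟩ := List.mem_map.1 hs
  cases t with
  | add i j a => exact ⟨⟨i, rfl⟩, ⟨j, rfl⟩⟩
  | scale i b => exact ⟨i, rfl⟩

theorem run_map_of_notMem (e : ι → κ) (p : List (Step ι)) (x : κ → ℂ) {r : κ}
    (hr : r ∉ Set.range e) : run (p.map (Step.map e)) x r = x r :=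
  run_apply_of_notMem (in_range_map e p) x hr

theorem run_map_equiv (e : ι ≃ κ) (p : List (Step ι)) (x : κ → ℂ) :
    run (p.map (Step.map e)) x = run p (x ∘ e) ∘ e.symm := by
  have h := run_map e.injective p x
  rw [← h]
  funext r
  simp

theorem tick_map (e : ι ≃ κ) (s : Step ι) (τ : κ → ℕ) :
    (s.map e).tick τ = s.tick (τ ∘ e) ∘ e.symm := by
  cases s with
  | add i j a =>
    funext r
    simp only [Step.map, Step.tick, Function.comp_apply, Equiv.symm_apply_eq,
      Equiv.apply_symm_apply]
  | scale i b =>
    funext r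
    simp only [Step.map, Step.tick, Function.comp_apply, Equiv.symm_apply_eq,
      Equiv.apply_symm_apply]

theorem clock_map (e : ι ≃ κ) (p : List (Step ι)) (τ : κ → ℕ) :
    clock (p.map (Step.map e)) τ = clock p (τ ∘ e) ∘ e.symm := by
  induction p generalizing τ with
  | nil => funext r; simp
  | cons s p ih =>
    rw [List.map_cons, clock_cons, ih, clock_cons, tick_map]
    congr 1
    congr 1
    funext r
    simp

/-! ### time stamps -/

theorem Step.tick_le (s : Step ι) (τ : ι → ℕ) (T : ℕ) (h : ∀ r, τ r ≤ T) (r : ι) :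
    s.tick τ r ≤ T + 1 := by
  cases s with
  | add i j a =>
    simp only [Step.tick]
    have h1 := h i
    have h2 := h j
    have h3 := h r
    split <;> omega
  | scale i b =>
    simp only [Step.tick]
    have h1 := h i
    have h3 := h r
    split <;> omega

theorem clock_le (p : List (Step ι)) (τ : ι → ℕ) (T : ℕ) (h : ∀ r, τ r ≤ T) (r : ι) :
    clock p τ r ≤ T + p.length := by
  induction p generalizing τ T with
  | nil => simpa using h r
  | cons s p ih =>
    have := ih (s.tick τ) (T + 1) (s.tick_le τ T h)
    simp only [clock_cons, List.length_cons]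
    omega

end basic

section norm
variable {ι κ : Type*} [DecidableEq ι] [DecidableEq κ] [Fintype ι] [Fintype κ]

theorem sqNorm_nonneg (x : ι → ℂ) : 0 ≤ sqNorm x :=
  Finset.sum_nonneg fun _ _ => by positivity

theorem sqNorm_comp_equiv (e : ι ≃ κ) (x : κ → ℂ) : sqNorm (x ∘ e) = sqNorm x := by
  unfold sqNorm
  exact Equiv.sum_comp e fun i => ‖x i‖ ^ 2

theorem sqNorm_update (x : ι → ℂ) (i : ι) (v : ℂ) :
    sqNorm (Function.update x i v) = ‖v‖ ^ 2 + ∑ r ∈ Finset.univ.erase i, ‖x r‖ ^ 2 := by
  unfold sqNorm
  rw [← Finset.add_sum_erase Finset.univ _ (Finset.mem_univ i)]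
  congr 1
  · simp
  · refine Finset.sum_congr rfl fun r hr => ?_
    rw [Function.update_of_ne (Finset.ne_of_mem_erase hr)]

/-- growth factor of one step -/
noncomputable def growth (C : ℝ) : ℝ := 2 + 2 * C ^ 2

theorem one_le_growth (C : ℝ) : 1 ≤ growth C := by
  unfold growth; nlinarith [sq_nonneg C]

theorem Step.sqNorm_act_le {C : ℝ} {s : Step ι} (h : s.Legal C) (x : ι → ℂ) :
    sqNorm (s.act x) ≤ growth C * sqNorm x := by
  have hsum : ∀ i : ι, sqNorm x = ‖x i‖ ^ 2 + ∑ r ∈ Finset.univ.erase i, ‖x r‖ ^ 2 := fun i => by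
    unfold sqNorm
    exact (Finset.add_sum_erase Finset.univ _ (Finset.mem_univ i)).symm
  cases s with
  | add i j a =>
    have hS : 0 ≤ ∑ r ∈ Finset.univ.erase i, ‖x r‖ ^ 2 :=
      Finset.sum_nonneg fun _ _ => by positivity
    have hj : ‖x j‖ ^ 2 ≤ ∑ r ∈ Finset.univ.erase i, ‖x r‖ ^ 2 :=
      Finset.single_le_sum (f := fun r => ‖x r‖ ^ 2) (fun _ _ => by positivity)
        (Finset.mem_erase.2 ⟨fun e => h.1 e.symm, Finset.mem_univ j⟩)
    have ha : ‖a‖ ≤ C := h.2
    have hC : 0 ≤ C := (norm_nonneg a).trans ha
    simp only [Step.act, sqNorm_update]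
    rw [hsum i]
    have h1 : ‖x i + a * x j‖ ≤ ‖x i‖ + C * ‖x j‖ := by
      refine (norm_add_le _ _).trans ?_
      rw [norm_mul]
      gcongr
    have h2 : ‖x i + a * x j‖ ^ 2 ≤ 2 * ‖x i‖ ^ 2 + 2 * C ^ 2 * ‖x j‖ ^ 2 := by
      have := pow_le_pow_left₀ (norm_nonneg _) h1 2
      nlinarith [sq_nonneg (‖x i‖ - C * ‖x j‖)]
    unfold growth
    nlinarith [sq_nonneg C, sq_nonneg ‖x i‖, mul_le_mul_of_nonneg_left hj (sq_nonneg C),
      mul_nonneg (sq_nonneg C) (sq_nonneg ‖x i‖), mul_nonneg (sq_nonneg C) hS]
  | scale i b =>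
    have hS : 0 ≤ ∑ r ∈ Finset.univ.erase i, ‖x r‖ ^ 2 :=
      Finset.sum_nonneg fun _ _ => by positivity
    have hb : ‖b‖ ≤ C := h.2.1
    simp only [Step.act, sqNorm_update]
    rw [hsum i, norm_mul, mul_pow]
    have hb2 : ‖b‖ ^ 2 ≤ C ^ 2 := pow_le_pow_left₀ (norm_nonneg _) hb 2
    unfold growth
    nlinarith [sq_nonneg C, sq_nonneg ‖x i‖, mul_le_mul_of_nonneg_right hb2 (sq_nonneg ‖x i‖),
      mul_nonneg (sq_nonneg C) hS, mul_nonneg (sq_nonneg C) (sq_nonneg ‖x i‖)]

theorem sqNorm_run_le {C : ℝ} {p : List (Step ι)} (h : ∀ s ∈ p, s.Legal C) (x : ι → ℂ) :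
    sqNorm (run p x) ≤ growth C ^ p.length * sqNorm x := by
  induction p generalizing x with
  | nil => simp
  | cons s p ih =>
    rw [run_cons, List.length_cons, pow_succ]
    refine (ih (fun t ht => h t (List.mem_cons_of_mem _ ht)) _).trans ?_
    rw [mul_assoc]
    exact mul_le_mul_of_nonneg_left (Step.sqNorm_act_le (h s List.mem_cons_self) x)
      (pow_nonneg (zero_le_one.trans (one_le_growth C)) _)

theorem sqNorm_le_run {C : ℝ} {p : List (Step ι)} (h : ∀ s ∈ p, s.Legal C) (x : ι → ℂ) :
    sqNorm x ≤ growth C ^ p.length * sqNorm (run p x) := by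
  have := sqNorm_run_le (legal_invProg h) (run p x)
  rwa [run_invProg h, length_invProg] at this

end norm

end Vale.Agent.P344.InPlace
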