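import Vale.Agent.P344.H951.CT
import Vale.Agent.P344.H952.Main

/-!
# From circuits to in-place programs and back
-/

set_option linter.unusedSectionVars false

namespace Vale.Agent.P344.InPlace

open Matrix Filter

/-! ### from programs to circuits -/

theorem steps_of_prog {n : ℕ} (p : List (Step (Fin n))) :
    ∃ s ≤ 2 * p.length, ∃ V : Set (ℕ × ((Fin n → ℂ) → ℂ)),
      Steps Set.univ (inputs (Fin n)) s V ∧ ∀ i, ∃ d, (d, fun x => run p x i) ∈ V := by
  induction p using List.reverseRecOn with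
  | nil =>
    refine ⟨0, by simp, inputs (Fin n), Steps.zero, fun i => ⟨0, rfl, Or.inr ⟨i, rfl⟩⟩⟩
  | append_singleton p t ih =>
    obtain ⟨s, hs, V, hV, hi⟩ := ih
    have hrun : ∀ x, run (p ++ [t]) x = t.act (run p x) := fun x => by
      rw [run_append]; rfl
    cases t with
    | add i j a =>
      obtain ⟨d, hd⟩ := hi i
      obtain ⟨e, he⟩ := hi j
      have h1 := Steps.smul a hV he (Set.mem_univ a)
      have h2 := Steps.add h1 (Set.mem_insert_of_mem _ hd) (Set.mem_insert _ _)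
      refine ⟨s + 1 + 1, by simp; omega, _, h2, fun r => ?_⟩
      by_cases hr : r = i
      · subst hr
        refine ⟨_, Set.mem_insert_iff.2 (Or.inl (Prod.ext_iff.2 ⟨rfl, ?_⟩))⟩
        funext x
        simp only [hrun, Step.act, Function.update_self]
        rfl
      · obtain ⟨f, hf⟩ := hi r
        refine ⟨f, Set.mem_insert_of_mem _ (Set.mem_insert_of_mem _ ?_)⟩
        have e' : (fun x => run (p ++ [Step.add i j a]) x r) = fun x => run p x r := by
          funext x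
          simp only [hrun, Step.act, Function.update_of_ne hr]
        rw [e']; exact hf
    | scale i b =>
      obtain ⟨d, hd⟩ := hi i
      have h1 := Steps.smul b hV hd (Set.mem_univ b)
      refine ⟨s + 1, by simp; omega, _, h1, fun r => ?_⟩
      by_cases hr : r = i
      · subst hr
        refine ⟨_, Set.mem_insert_iff.2 (Or.inl (Prod.ext_iff.2 ⟨rfl, ?_⟩))⟩
        funext x
        simp only [hrun, Step.act, Function.update_self]
        rfl
      · obtain ⟨f, hf⟩ := hi r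
        refine ⟨f, Set.mem_insert_of_mem _ ?_⟩
        have e' : (fun x => run (p ++ [Step.scale i b]) x r) = fun x => run p x r := by
          funext x
          simp only [hrun, Step.act, Function.update_of_ne hr]
        rw [e']; exact hf

theorem L_le_of_prog {n : ℕ} {p : List (Step (Fin n))} (h : ComputesDFT n p) :
    L n ≤ 2 * p.length := by
  obtain ⟨s, hs, V, hV, hi⟩ := steps_of_prog p
  obtain ⟨σ, hσ⟩ := h
  refine le_trans (L_le (Λ := Set.univ) (D := ⊤) (s := s) ⟨V, hV, fun j => ?_⟩) hs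
  obtain ⟨d, hd⟩ := hi (σ j)
  refine ⟨d, le_top, ?_⟩
  have e : (fun x => run p x (σ j)) = dft n j := by
    funext x; exact hσ x j
  rwa [e] at hd

/-- a circuit with `L n` gates exists -/
theorem exists_circuit {n : ℕ} (hn : 1 ≤ n) :
    ∃ (gs : List Gate) (out : Fin n → ℕ), gs.length = L n ∧
      CircuitComputes gs out (dftMatrix n) := by
  have hne : {s | Computes Set.univ ⊤ (dft n) s}.Nonempty := by
    obtain ⟨C, p, _, hp⟩ := hasProg_dft (m := n) hn
    obtain ⟨s, _, V, hV, hi⟩ := steps_of_prog p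
    refine ⟨s, V, hV, fun j => ?_⟩
    obtain ⟨d, hd⟩ := hi j
    refine ⟨d, le_top, ?_⟩
    have e : (fun x => run p x j) = dft n j := by
      funext x; rw [hp x]; rfl
    rwa [e] at hd
  exact circuit_of_computes (Nat.sInf_mem hne)

/-! ### from circuits to programs -/

theorem Gate.Bdd.mono {C C' : ℝ} (h : C ≤ C') {g : Gate} (hg : g.Bdd C) : g.Bdd C' := by
  cases g with
  | add u v => trivial
  | sub u v => trivial
  | smul c u => exact le_trans hg h

theorem exists_bdd (gs : List Gate) : ∃ C : ℝ, ∀ g ∈ gs, g.Bdd C := by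
  induction gs with
  | nil => exact ⟨0, by simp⟩
  | cons g gs ih =>
    obtain ⟨C, hC⟩ := ih
    have h1 : ∃ C' : ℝ, g.Bdd C' := by
      cases g with
      | add u v => exact ⟨0, trivial⟩
      | sub u v => exact ⟨0, trivial⟩
      | smul c u => exact ⟨‖c‖, le_rfl⟩
    obtain ⟨C', hC'⟩ := h1
    refine ⟨max C C', ?_⟩
    intro g' hg'
    rcases List.mem_cons.1 hg' with h | h
    · subst h; exact hC'.mono (le_max_right _ _)
    · exact (hC g' h).mono (le_max_left _ _)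

/-- the transform of a large group of blocks -/
theorem exists_group {m : ℕ} (hm : 2 ≤ m) :
    ∃ (C : ℝ) (a : ℕ), 1 ≤ C ∧
      Small C (m ^ a * (12 * L m + 7 * m + 1))
        (TS (m := m) (Finset.univ : Finset (Fin (m ^ a)))) := by
  obtain ⟨gs, out, hlen, hcirc⟩ := exists_circuit (n := m) (by omega)
  obtain ⟨C1, hC1⟩ := exists_bdd gs
  obtain ⟨C2, p, hp, hrun⟩ := hasProg_dft (m := m) (by omega)
  set C : ℝ := max (max 1 (m : ℝ)) (max C1 C2) with hC
  have h1 : (1 : ℝ) ≤ C := (le_max_left _ _).trans (le_max_left _ _)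
  have h2 : (m : ℝ) ≤ C := (le_max_right _ _).trans (le_max_left _ _)
  have h3 : C1 ≤ C := (le_max_left _ _).trans (le_max_right _ _)
  have h4 : C2 ≤ C := (le_max_right _ _).trans (le_max_right _ _)
  obtain ⟨a, ha⟩ : ∃ a, max p.length (gs.length + 2) ≤ m ^ a := by
    refine ⟨max p.length (gs.length + 2), ?_⟩
    exact (Nat.lt_pow_self (by omega)).le
  refine ⟨C, a, h1, ?_⟩
  have h := small_set (β := Fin (m ^ a)) hcirc h1 (by omega) h2
    (fun g hg => (hC1 g hg).mono h3) (by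
      rw [Fintype.card_fin]
      have h5 : gs.length + 2 ≤ m ^ a := (le_max_right _ _).trans ha
      calc gs.length ≤ m ^ a - 2 := by omega
        _ = 1 * (m ^ a - 2) := (one_mul _).symm
        _ ≤ m * (m ^ a - 2) := Nat.mul_le_mul_right _ (by omega))
    (fun s hs => (hp s hs).mono h4) hrun (m ^ a) Finset.univ (by simp)
  refine h.mono le_rfl ?_
  have h5 : p.length ≤ m ^ a := (le_max_left _ _).trans ha
  have h6 : m ^ a / 2 * (24 * gs.length + 13 * m) ≤ m ^ a * (12 * L m + 7 * m) := by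
    rw [hlen]
    have h7 : m ^ a / 2 * 2 ≤ m ^ a := Nat.div_mul_le_self _ _
    calc m ^ a / 2 * (24 * L m + 13 * m) ≤ m ^ a / 2 * (2 * (12 * L m + 7 * m)) :=
          Nat.mul_le_mul_left _ (by omega)
      _ = (m ^ a / 2 * 2) * (12 * L m + 7 * m) := by ring
      _ ≤ _ := Nat.mul_le_mul_right _ h7
  calc _ ≤ m ^ a * (12 * L m + 7 * m) + m ^ a := by omega
    _ = _ := by ring

/-- a program for `F_n` from a program for `F_n ⊗ I_1` -/
theorem prog_of_good {C K : ℝ} {n N d : ℕ}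
    (h : Good C K N d (dftOn n : (Fin n × Unit → ℂ) → (Fin n × Unit → ℂ))) :
    ∃ p : List (Step (Fin n)), ComputesDFT n p ∧ p.length ≤ N ∧ (∀ s ∈ p, s.Legal C) ∧
      CondLe K p ∧ depth p ≤ d := by
  obtain ⟨p, σ, h1, h2, h3, h4, h5⟩ := h.relabel (Equiv.prodPUnit (Fin n))
  refine ⟨p, ⟨σ, fun x j => ?_⟩, h1, h2, h4, ?_⟩
  · rw [h5]
    simp only [Function.comp_apply]
    rfl
  · unfold depth
    refine Finset.sup_le fun r _ => ?_
    have := h3 (fun _ => 0) 0 (fun _ => le_rfl) r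
    simpa using this

/-- uniform programs for the small transforms `F_{2^r}`, `r < a` -/
theorem exists_small_progs (a : ℕ) : ∃ (C : ℝ) (l : ℕ), ∀ r < a, ∀ (G : Type) [Fintype G]
    [DecidableEq G], ∀ _ : G, Small C l
      (fun z : Fin (2 ^ r) → ℂ => dftMatrix (2 ^ r) *ᵥ z) := by
  induction a with
  | zero => exact ⟨0, 0, fun r hr => absurd hr (Nat.not_lt_zero r)⟩
  | succ a ih =>
    obtain ⟨C, l, h⟩ := ih
    obtain ⟨C', p, hp, hrun⟩ := hasProg_dft (m := 2 ^ a) (Nat.one_le_two_pow)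
    refine ⟨max C C', max l p.length, ?_⟩
    intro r hr G _ _ g
    rcases Nat.lt_succ_iff_lt_or_eq.1 hr with h1 | h1
    · exact (h r h1 G g).mono (le_max_left _ _) (le_max_left _ _)
    · subst h1
      exact ⟨p, 1, le_max_right _ _, fun s hs => (hp s hs).mono (le_max_right _ _),
        fun z i => by rw [hrun]; rfl⟩

/-- in-place programs for `F_{2^k}` from a circuit for `F_{2^a}` -/
theorem inplace_upper (a : ℕ) (ha : 1 ≤ a) : ∃ (C B : ℝ), 0 ≤ C ∧ ∀ᶠ k : ℕ in atTop,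
    ∃ p : List (Step (Fin (2 ^ k))), Tame C (2 ^ k) p ∧
      (p.length : ℝ) ≤ (12 * L (2 ^ a) + 8 * 2 ^ a + 1) / (a * 2 ^ a) * (2 ^ k * k) +
        B * 2 ^ k := by
  set m := 2 ^ a with hm
  have hm2 : 2 ≤ m := by
    calc 2 = 2 ^ 1 := rfl
      _ ≤ 2 ^ a := Nat.pow_le_pow_right (by omega) ha
  obtain ⟨C₁, g, hC₁, hgrp⟩ := exists_group hm2
  obtain ⟨C₂, l, hsmall⟩ := exists_small_progs a
  set C := max C₁ C₂ with hC
  have hC1 : 1 ≤ C := hC₁.trans (le_max_left _ _)
  set W := 12 * L m + 7 * m + 1 with hW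
  set n₀ := m ^ g * W with hn₀
  have hn₀1 : 1 ≤ n₀ := Nat.mul_pos (Nat.pow_pos (by omega)) (by omega)
  have hgrp' : Small C n₀ (TS (m := m) (Finset.univ : Finset (Fin (m ^ g)))) :=
    hgrp.mono (le_max_left _ _) le_rfl
  -- the condition bound
  set K := growth C ^ (n₀ + l) with hK
  have hg1 : 1 ≤ growth C := one_le_growth C
  have hK1 : growth C ^ (2 * n₀) ≤ K ^ 2 := by
    rw [hK, ← pow_mul]
    exact pow_le_pow_right₀ hg1 (by omega)
  have hK2 : growth C ^ (2 * l) ≤ K ^ 2 := by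
    rw [hK, ← pow_mul]
    exact pow_le_pow_right₀ hg1 (by omega)
  have hK3 : growth C ^ 2 ≤ K ^ 2 := by
    rw [hK, ← pow_mul]
    exact pow_le_pow_right₀ hg1 (by omega)
  have hK0 : 0 ≤ K := pow_nonneg (zero_le_one.trans hg1) _
  set C' : ℝ := max (max C K) ((n₀ + l + 2 : ℕ) : ℝ) with hC'
  refine ⟨C', (l + 1 : ℕ), (Nat.cast_nonneg _).trans (le_max_right _ _), ?_⟩
  filter_upwards [eventually_ge_atTop (a * (g + 1))] with k hk
  set r := k % a with hr
  set e := k / a with he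
  have hra : r < a := Nat.mod_lt _ (by omega)
  have hek : a * e + r = k := Nat.div_add_mod k a
  have hge : g + 1 ≤ e := by
    rw [he]
    exact (Nat.le_div_iff_mul_le (by omega)).2 (by rw [mul_comm]; exact hk)
  obtain ⟨f, hf⟩ : ∃ f, e = g + f + 1 := ⟨e - g - 1, by omega⟩
  -- number of registers
  have hpow : 2 ^ r * m ^ (g + f + 1) = 2 ^ k := by
    rw [hm, ← pow_mul, ← pow_add, ← hf]
    congr 1
    omega
  have h2 := good_pow (C := C) (K := K) hC1 (m := m) (by omega) (G₀ := m ^ g) (q := m ^ f * 2 ^ r)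
    hn₀1 hgrp' hK1 (g + f) (Fin (2 ^ r) × Unit) (by
      rw [Fintype.card_prod, Fintype.card_fin, Fintype.card_unit, pow_add]; ring)
  have h1 : Good C K (Fintype.card (Fin (m ^ (g + f + 1)) × Unit) * l) l
      (dftOn (2 ^ r) : (Fin (2 ^ r) × (Fin (m ^ (g + f + 1)) × Unit) → ℂ) →
        (Fin (2 ^ r) × (Fin (m ^ (g + f + 1)) × Unit) → ℂ)) := by
    have := good_par (C := C) (K := K) (α := Fin (2 ^ r)) (G := Fin (m ^ (g + f + 1)) × Unit)
      (fun x => (hsmall r hra _ x).mono (le_max_right C₁ C₂) le_rfl) hK2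
    exact this.congr fun z i => rfl
  have h3 := good_ct (κ := Unit) hC1 hK3 (a := 2 ^ r) (b := m ^ (g + f + 1))
    Nat.one_le_two_pow (Nat.one_le_pow _ _ (by omega)) h1 h2
  rw [hpow] at h3
  obtain ⟨p, p1, p2, p3, p4, p5⟩ := prog_of_good h3
  -- bound for the length
  have hN : m * (m ^ g * (m ^ f * 2 ^ r)) = 2 ^ k := by
    rw [← hpow]; ring
  have hlen : (p.length : ℝ) ≤ (12 * L m + 8 * m + 1 : ℕ) / (a * m) * (2 ^ k * k) +
      ((l + 1 : ℕ) : ℝ) * 2 ^ k := by
    have hp2 : p.length ≤ 2 ^ k * l + 2 ^ k + e * (m ^ g * (m ^ f * 2 ^ r) *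
        (12 * L m + 8 * m + 1)) := by
      refine p2.trans ?_
      rw [Fintype.card_prod, Fintype.card_prod, Fintype.card_fin, Fintype.card_fin,
        Fintype.card_unit, mul_one, mul_one]
      have hle : m ^ (g + f + 1) ≤ 2 ^ k := by
        rw [← hpow]
        exact Nat.le_mul_of_pos_left _ (Nat.two_pow_pos r)
      have e1 : (g + f + 1) * (m ^ f * 2 ^ r * n₀ + m * (m ^ g * (m ^ f * 2 ^ r))) =
          e * (m ^ g * (m ^ f * 2 ^ r) * (12 * L m + 8 * m + 1)) := by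
        rw [hf, hn₀, hW]; ring
      rw [e1]
      have := Nat.mul_le_mul_right l hle
      omega
    have hmR : (0 : ℝ) < m := by exact_mod_cast (by omega : 0 < m)
    have haR : (0 : ℝ) < a := by exact_mod_cast (by omega : 0 < a)
    have hNR : ((m ^ g * (m ^ f * 2 ^ r) : ℕ) : ℝ) = 2 ^ k / m := by
      rw [eq_div_iff hmR.ne']
      have : ((m * (m ^ g * (m ^ f * 2 ^ r)) : ℕ) : ℝ) = ((2 ^ k : ℕ) : ℝ) := by rw [hN]
      push_cast at this ⊢
      linarith
    have heR : (e : ℝ) ≤ k / a := by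
      rw [le_div_iff₀ haR]
      have : e * a ≤ k := by rw [mul_comm]; omega
      exact_mod_cast this
    have hp3 : (p.length : ℝ) ≤ 2 ^ k * l + 2 ^ k +
        e * (((m ^ g * (m ^ f * 2 ^ r) : ℕ) : ℝ) * ((12 * L m + 8 * m + 1 : ℕ) : ℝ)) := by
      exact_mod_cast hp2
    rw [hNR] at hp3
    have hpos : (0 : ℝ) ≤ 2 ^ k / m * ((12 * L m + 8 * m + 1 : ℕ) : ℝ) := by positivity
    have h5 := mul_le_mul_of_nonneg_right heR hpos
    refine hp3.trans ?_
    have h6 : (k / a : ℝ) * (2 ^ k / m * ((12 * L m + 8 * m + 1 : ℕ) : ℝ)) =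
        (12 * L m + 8 * m + 1 : ℕ) / (a * m) * (2 ^ k * k) := by
      field_simp
    rw [h6] at h5
    push_cast at h5 ⊢
    linarith
  refine ⟨p, ⟨p1, fun s hs => (p3 s hs).mono ((le_max_left _ _).trans (le_max_left _ _)),
    ?_, ?_⟩, ?_⟩
  · intro q hq
    obtain ⟨α, hα, hb⟩ := p4 q hq
    refine ⟨α, hα, fun x => ⟨(hb x).1, (hb x).2.trans ?_⟩⟩
    have hKC : K ≤ C' := (le_max_right _ _).trans (le_max_left _ _)
    have := sqNorm_nonneg x
    gcongr
  · have hl : Real.logb 2 ((2 ^ k : ℕ) : ℝ) = k := by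
      push_cast
      rw [Real.logb_pow, Real.logb_self_eq_one (by norm_num), mul_one]
    rw [hl]
    have hd : depth p ≤ (n₀ + l + 2) * k := by
      refine p5.trans ?_
      have hek' : g + f + 1 ≤ k := by
        rw [← hf]
        calc e = 1 * e := (one_mul e).symm
          _ ≤ a * e := Nat.mul_le_mul_right _ ha
          _ ≤ k := by omega
      have hk1 : 1 ≤ k := by omega
      calc l + 1 + (g + f + 1) * (n₀ + 1) ≤ (l + 1) * k + k * (n₀ + 1) := by
            refine Nat.add_le_add ?_ (Nat.mul_le_mul_right _ hek')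
            exact Nat.le_mul_of_pos_right _ hk1
        _ = _ := by ring
    calc (depth p : ℝ) ≤ (((n₀ + l + 2) * k : ℕ) : ℝ) := by exact_mod_cast hd
      _ = ((n₀ + l + 2 : ℕ) : ℝ) * k := by push_cast; ring
      _ ≤ C' * k := mul_le_mul_of_nonneg_right (le_max_right _ _) (Nat.cast_nonneg k)
  · refine hlen.trans (le_of_eq ?_)
    push_cast [hm]
    ring

/-- quantitative form of the reduction -/
theorem inplace_upper_gam {δ : ℝ} (hδ : 0 < δ) : ∃ C : ℝ, 0 ≤ C ∧ ∀ᶠ k : ℕ in atTop,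
    ∃ p : List (Step (Fin (2 ^ k))), Tame C (2 ^ k) p ∧
      (p.length : ℝ) ≤ (48 * gam + δ) * (2 ^ k * k) := by
  obtain ⟨_, _, _, _, hup⟩ := upper_two (show 0 < δ / 36 by linarith)
  obtain ⟨a, ⟨s, hs, hsb⟩, ha1, haδ⟩ := (hup.and ((eventually_ge_atTop 1).and
    (eventually_ge_atTop ⌈27 / δ⌉₊))).exists
  obtain ⟨C, B, hC0, h⟩ := inplace_upper a ha1
  refine ⟨C, hC0, ?_⟩
  filter_upwards [h, eventually_ge_atTop ⌈3 * B / δ⌉₊] with k hk hkB
  obtain ⟨p, hp, hlen⟩ := hk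
  refine ⟨p, hp, hlen.trans ?_⟩
  have haR : (1 : ℝ) ≤ a := by exact_mod_cast ha1
  have haδ' : 27 / δ ≤ a := (Nat.le_ceil _).trans (by exact_mod_cast haδ)
  have hkB' : 3 * B / δ ≤ k := (Nat.le_ceil _).trans (by exact_mod_cast hkB)
  rw [div_le_iff₀ hδ] at haδ' hkB'
  have hL : (L (2 ^ a) : ℝ) ≤ (4 * gam + δ / 36) * (2 ^ a * a) := by
    refine le_trans ?_ hsb
    exact_mod_cast L_le hs
  have hP : (1 : ℝ) ≤ 2 ^ a := one_le_pow₀ (by norm_num)
  have hcoef : (12 * L (2 ^ a) + 8 * 2 ^ a + 1 : ℝ) / (a * 2 ^ a) ≤ 48 * gam + 2 * δ / 3 := by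
    rw [div_le_iff₀ (by positivity)]
    have h9 : 9 * (2 : ℝ) ^ a ≤ δ / 3 * (a * 2 ^ a) := by nlinarith
    nlinarith
  have hk0 : (0 : ℝ) ≤ 2 ^ k * k := by positivity
  have h1 := mul_le_mul_of_nonneg_right hcoef hk0
  have h2 : B * 2 ^ k ≤ δ / 3 * (2 ^ k * k) := by
    have : (0 : ℝ) < 2 ^ k := by positivity
    nlinarith
  linarith

theorem Tame.mono {C C' : ℝ} {n : ℕ} {p : List (Step (Fin n))} (h : Tame C n p) (hC0 : 0 ≤ C)
    (hC : C ≤ C') (hn : 1 ≤ n) : Tame C' n p := by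
  obtain ⟨h1, h2, h3, h4⟩ := h
  refine ⟨h1, fun s hs => (h2 s hs).mono hC, ?_, h4.trans ?_⟩
  · intro q hq
    obtain ⟨α, hα, hb⟩ := h3 q hq
    refine ⟨α, hα, fun x => ⟨(hb x).1, (hb x).2.trans ?_⟩⟩
    have := sqNorm_nonneg x
    gcongr
  · refine mul_le_mul_of_nonneg_right hC ?_
    exact Real.logb_nonneg (by norm_num) (by exact_mod_cast hn)

theorem prog_lower {n : ℕ} (hn : 2 ≤ n) {p : List (Step (Fin n))} (h : ComputesDFT n p) :
    (gam * (n * Real.logb 2 n) - n) / 2 ≤ p.length := by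
  have h1 := lower_one hn
  have h2 : (L n : ℝ) ≤ 2 * p.length := by exact_mod_cast L_le_of_prog h
  linarith

/-- a lower bound for tame programs at infinitely many powers of two gives Q1 -/
theorem gam_pos_of_tame {c : ℝ} (hc : 0 < c)
    (h : ∀ C : ℝ, 0 ≤ C → ∃ᶠ k : ℕ in atTop, ∀ p : List (Step (Fin (2 ^ k))), Tame C (2 ^ k) p →
      c * (2 ^ k * k) ≤ p.length) : 0 < gam := by
  by_contra hcon
  have h0 : gam = 0 := le_antisymm (not_lt.1 hcon) gam_nonneg
  obtain ⟨C, hC0, hC⟩ := inplace_upper_gam (show 0 < c / 2 by linarith)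
  obtain ⟨k, hk, ⟨p, hp, hlen⟩, hk1⟩ :=
    ((h C hC0).and_eventually (hC.and (eventually_ge_atTop 1))).exists
  have h1 := hk p hp
  rw [h0] at hlen
  have hk1' : (1 : ℝ) ≤ k := by exact_mod_cast hk1
  have h3 : (0 : ℝ) < 2 ^ k * k := by positivity
  nlinarith

theorem tfae_inplace (C : ℕ → ℝ) (hC : Tendsto C atTop atTop) : List.TFAE [
    ∃ c : ℝ, 0 < c ∧ ∀ᶠ n : ℕ in atTop, c * (n * Real.logb 2 n) ≤ L n,
    ∃ c : ℝ, 0 < c ∧ ∀ᶠ n : ℕ in atTop, ∀ p : List (Step (Fin n)), ComputesDFT n p →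
      c * (n * Real.logb 2 n) ≤ p.length,
    ∃ c : ℝ, 0 < c ∧ ∀ K : ℝ, ∀ᶠ n : ℕ in atTop, ∀ p : List (Step (Fin n)), Tame K n p →
      c * (n * Real.logb 2 n) ≤ p.length,
    ∃ c : ℝ, 0 < c ∧ ∀ᶠ n : ℕ in atTop, ∀ p : List (Step (Fin n)), Tame (C n) n p →
      c * (n * Real.logb 2 n) ≤ p.length,
    ∃ c : ℝ, 0 < c ∧ ∃ᶠ k : ℕ in atTop, ∀ p : List (Step (Fin (2 ^ k))),
      Tame (C (2 ^ k)) (2 ^ k) p → c * (2 ^ k * k) ≤ p.length] := by
  have hpow : Tendsto (fun k : ℕ => 2 ^ k) atTop atTop :=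
    tendsto_pow_atTop_atTop_of_one_lt (by omega)
  have hlog : ∀ k : ℕ, ((2 ^ k : ℕ) : ℝ) * Real.logb 2 ((2 ^ k : ℕ) : ℝ) = 2 ^ k * k := by
    intro k
    push_cast
    rw [Real.logb_pow, Real.logb_self_eq_one (by norm_num), mul_one]
  tfae_have 1 → 2 := by
    rintro ⟨c, hc, h⟩
    refine ⟨c / 2, by linarith, ?_⟩
    filter_upwards [h] with n hn p hp
    have h2 : (L n : ℝ) ≤ 2 * p.length := by exact_mod_cast L_le_of_prog hp
    linarith
  tfae_have 2 → 3 := fun ⟨c, hc, h⟩ => ⟨c, hc, fun K => h.mono fun n hn p hp => hn p hp.1⟩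
  tfae_have 2 → 4 := fun ⟨c, hc, h⟩ => ⟨c, hc, h.mono fun n hn p hp => hn p hp.1⟩
  tfae_have 4 → 5 := by
    rintro ⟨c, hc, h⟩
    refine ⟨c, hc, Eventually.frequently ?_⟩
    filter_upwards [hpow.eventually h] with k hk p hp
    have := hk p hp
    rwa [hlog] at this
  tfae_have 3 → 1 := by
    rintro ⟨c, hc, h⟩
    refine absorb (gam_pos_of_tame hc fun K _ => Eventually.frequently ?_) fun n hn => lower_one hn
    filter_upwards [hpow.eventually (h K)] with k hk p hp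
    have := hk p hp
    rwa [hlog] at this
  tfae_have 5 → 1 := by
    rintro ⟨c, hc, h⟩
    refine absorb (gam_pos_of_tame hc fun K hK0 => ?_) fun n hn => lower_one hn
    refine (h.and_eventually (hpow.eventually (hC.eventually_ge_atTop K))).mono ?_
    rintro k ⟨hk, hkC⟩ p hp
    exact hk p (hp.mono hK0 hkC Nat.one_le_two_pow)
  tfae_finish

end Vale.Agent.P344.InPlace
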