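import Vale.Agent.P344.H951.Dirty
import Vale.Agent.P344.H951.DFT

/-!
# The Fourier transform of several blocks, in place
-/

set_option linter.unusedSectionVars false

namespace Vale.Agent.P344.InPlace

open Matrix

theorem Step.Legal.mono {ι : Type*} {C C' : ℝ} (hC : C ≤ C') {s : Step ι} (h : s.Legal C) :
    s.Legal C' := by
  cases s with
  | add i j a => exact ⟨h.1, h.2.trans hC⟩
  | scale i b => exact ⟨h.1, h.2.1.trans hC, h.2.2.trans hC⟩

section small
variable {ι κ : Type*} [DecidableEq ι] [DecidableEq κ]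

/-- `T` has, up to the order of the registers at the end, an in-place program with at most `n`
steps and coefficients bounded by `C` -/
def Small (C : ℝ) (n : ℕ) (T : (ι → ℂ) → (ι → ℂ)) : Prop :=
  ∃ (p : List (Step ι)) (σ : Equiv.Perm ι), p.length ≤ n ∧ (∀ s ∈ p, s.Legal C) ∧
    ∀ z i, run p z (σ i) = T z i

theorem Small.mono {C C' : ℝ} {n n' : ℕ} {T : (ι → ℂ) → (ι → ℂ)} (h : Small C n T)
    (hC : C ≤ C') (hn : n ≤ n') : Small C' n' T := by
  obtain ⟨p, σ, h1, h2, h3⟩ := h
  exact ⟨p, σ, h1.trans hn, fun s hs => (h2 s hs).mono hC, h3⟩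

theorem Small.id (C : ℝ) : Small (ι := ι) C 0 (fun z => z) :=
  ⟨[], 1, by simp, by simp, by simp⟩

theorem Small.comp {C : ℝ} {n n' : ℕ} {S T : (ι → ℂ) → (ι → ℂ)} (hS : Small C n S)
    (hT : Small C n' T) : Small C (n + n') (fun z => T (S z)) := by
  obtain ⟨p, σ, p1, p2, p3⟩ := hS
  obtain ⟨q, τ, q1, q2, q3⟩ := hT
  refine ⟨p ++ q.map (Step.map σ), τ.trans σ, ?_, ?_, ?_⟩
  · simp only [List.length_append, List.length_map]; omega
  · intro s hs
    rcases List.mem_append.1 hs with h | h
    · exact p2 s h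
    · obtain ⟨t, ht, rfl⟩ := List.mem_map.1 h
      exact (q2 t ht).map σ.injective
  · intro z i
    rw [run_append, run_map_equiv]
    simp only [Function.comp_apply, Equiv.trans_apply, Equiv.symm_apply_apply]
    have : run p z ∘ σ = S z := by funext r; exact p3 z r
    rw [this]
    exact q3 _ _

end small

/-! ### the pair operation -/

section pair
variable {ι : Type*} [DecidableEq ι] {m : ℕ}

/-- the program `(x, y) ↦ ((F y) ∘ rev, F x)` -/
noncomputable def pairProg (X Y : Fin m → ι) (R : ℕ → ι) (gs : List Gate) (out : Fin m → ℕ) :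
    List (Step ι) :=
  addProg X Y R gs out (1 / 2) ++ (addProg Y X R gs (fun i => out (rev i)) (-1 / (2 * m)) ++
    (addProg X Y R gs out (1 / 2) ++ (List.finRange m).map fun i => Step.scale (X i) (-m)))

theorem length_pairProg_le (X Y : Fin m → ι) (R : ℕ → ι) (gs : List Gate) (out : Fin m → ℕ) :
    (pairProg X Y R gs out).length ≤ 24 * gs.length + 13 * m := by
  have h1 := length_addProg_le X Y R gs out (1 / 2)
  have h2 := length_addProg_le Y X R gs (fun i => out (rev i)) (-1 / (2 * m))
  simp only [pairProg, List.length_append, List.length_map, List.length_finRange]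
  omega

theorem legal_pairProg {X Y : Fin m → ι} {R : ℕ → ι} {gs : List Gate}
    (h : Setup X Y R gs.length) (out : Fin m → ℕ) {C : ℝ} (hC : 1 ≤ C) (hm : 1 ≤ m)
    (hmC : (m : ℝ) ≤ C) (hg : ∀ g ∈ gs, g.Bdd C) :
    ∀ t ∈ pairProg X Y R gs out, t.Legal C := by
  have hm' : (1 : ℝ) ≤ m := by exact_mod_cast hm
  have h12 : ‖(1 / 2 : ℂ)‖ ≤ C := by
    have : ‖(1 / 2 : ℂ)‖ = 1 / 2 := by simp
    rw [this]; linarith
  have h2m : ‖(-1 / (2 * m) : ℂ)‖ ≤ C := by
    have : ‖(-1 / (2 * m) : ℂ)‖ = 1 / (2 * m) := by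
      rw [norm_div, norm_neg, norm_one, norm_mul, Complex.norm_natCast]
      simp
    rw [this]
    refine le_trans ?_ hC
    rw [div_le_one (by positivity)]
    linarith
  intro t ht
  rcases List.mem_append.1 ht with h1 | h1
  · exact legal_addProg h out hC h12 hg t h1
  · rcases List.mem_append.1 h1 with h2 | h2
    · exact legal_addProg h.symm _ hC h2m hg t h2
    · rcases List.mem_append.1 h2 with h3 | h3
      · exact legal_addProg h out hC h12 hg t h3
      · obtain ⟨i, _, rfl⟩ := List.mem_map.1 h3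
        refine ⟨?_, ?_, ?_⟩
        · rw [neg_ne_zero]; exact_mod_cast (by omega : m ≠ 0)
        · rw [norm_neg, Complex.norm_natCast]; exact hmC
        · rw [norm_inv, norm_neg, Complex.norm_natCast]
          exact (inv_le_one_of_one_le₀ hm').trans hC

theorem run_pairProg {X Y : Fin m → ι} {R : ℕ → ι} {gs : List Gate}
    (h : Setup X Y R gs.length) {out : Fin m → ℕ} (hc : CircuitComputes gs out (dftMatrix m))
    {C : ℝ} (hC : 1 ≤ C) (hm : 1 ≤ m) (hg : ∀ g ∈ gs, g.Bdd C) (z : ι → ℂ) :
    (∀ i, run (pairProg X Y R gs out) z (X i) = (dftMatrix m *ᵥ (z ∘ Y)) (rev i)) ∧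
    (∀ i, run (pairProg X Y R gs out) z (Y i) = (dftMatrix m *ᵥ (z ∘ X)) i) ∧
    (∀ r, (∀ i, X i ≠ r) → (∀ i, Y i ≠ r) → run (pairProg X Y R gs out) z r = z r) := by
  have hm0 : (m : ℂ) ≠ 0 := by exact_mod_cast (by omega : m ≠ 0)
  set F := dftMatrix m with hF
  set x := z ∘ X with hx
  set y := z ∘ Y with hy
  set z1 := run (addProg X Y R gs out (1 / 2)) z with hz1
  set z2 := run (addProg Y X R gs (fun i => out (rev i)) (-1 / (2 * m))) z1 with hz2
  set z3 := run (addProg X Y R gs out (1 / 2)) z2 with hz3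
  have h1Y : ∀ i, z1 (Y i) = y i + (F *ᵥ x) i := by
    intro i
    rw [hz1, run_addProg_Y h out _ hC hg, hc (z ∘ X) i]
    simp [hy, hx, hF]
  have h1ne : ∀ r, (∀ i, Y i ≠ r) → z1 r = z r := fun r hr =>
    run_addProg_of_ne h out _ hC hg z hr
  have hz1Y : z1 ∘ Y = y + F *ᵥ x := by
    funext i; simpa using h1Y i
  have h2X : ∀ i, z2 (X i) = - (1 / m) * (F *ᵥ y) (rev i) := by
    intro i
    rw [hz2, run_addProg_Y h.symm _ _ hC hg, hc (z1 ∘ Y) (rev i), h1ne _ (fun j e => h.XY i j e.symm),
      hz1Y, Matrix.mulVec_add, Pi.add_apply, dft_dft_rev]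
    simp only [hx, Function.comp_apply]
    field_simp
    ring
  have h2ne : ∀ r, (∀ i, X i ≠ r) → z2 r = z1 r := fun r hr =>
    run_addProg_of_ne h.symm _ _ hC hg z1 hr
  have hz2X : z2 ∘ X = (-(1 / m) : ℂ) • (fun i => (F *ᵥ y) (rev i)) := by
    funext i
    simp only [Function.comp_apply, h2X, Pi.smul_apply, smul_eq_mul]
  have h3Y : ∀ i, z3 (Y i) = (F *ᵥ x) i := by
    intro i
    rw [hz3, run_addProg_Y h out _ hC hg, hc (z2 ∘ X) i, h2ne _ (fun j e => h.XY j i e),
      h1Y, hz2X, Matrix.mulVec_smul, Pi.smul_apply, dft_of_rev]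
    simp only [smul_eq_mul]
    field_simp
    ring
  have h3ne : ∀ r, (∀ i, Y i ≠ r) → z3 r = z2 r := fun r hr =>
    run_addProg_of_ne h out _ hC hg z2 hr
  have hrun : run (pairProg X Y R gs out) z =
      run ((List.finRange m).map fun i => Step.scale (X i) (-m)) z3 := by
    rw [pairProg, run_append, run_append, run_append]
  refine ⟨?_, ?_, ?_⟩
  · intro i
    rw [hrun, run_scales h.XX (fun _ => (-m : ℂ)) (List.finRange m) (List.nodup_finRange m) z3
      (List.mem_finRange i), h3ne _ (fun j e => h.XY i j e.symm), h2X]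
    field_simp
  · intro i
    rw [hrun, run_scales_of_notMem X (fun _ => (-m : ℂ)) (List.finRange m) z3
      (fun j _ e => h.XY j i e), h3Y]
  · intro r hX hY
    rw [hrun, run_scales_of_notMem X (fun _ => (-m : ℂ)) (List.finRange m) z3 (fun j _ => hX j),
      h3ne _ hY, h2ne _ hX, h1ne _ hY]

end pair

/-! ### transforms of a set of blocks -/

section blocks
variable {β : Type*} [DecidableEq β] {m : ℕ}

/-- apply `F_m` to the blocks in `S` -/
noncomputable def TS (S : Finset β) (z : Fin m × β → ℂ) : Fin m × β → ℂ :=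
  fun p => if p.2 ∈ S then (dftMatrix m *ᵥ fun j => z (j, p.2)) p.1 else z p

theorem TS_union (S S' : Finset β) (h : Disjoint S S') (z : Fin m × β → ℂ) :
    TS S (TS S' z) = TS (S ∪ S') z := by
  funext p
  simp only [TS, Finset.mem_union]
  by_cases h1 : p.2 ∈ S
  · have h2 : p.2 ∉ S' := Finset.disjoint_left.1 h h1
    simp [h1, h2]
  · by_cases h2 : p.2 ∈ S'
    · simp [h1, h2]
    · simp [h1, h2]

theorem TS_empty (z : Fin m × β → ℂ) : TS ∅ z = z := by
  funext p; simp [TS]

/-- permutation exchanging two blocks and reversing one of them -/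
theorem exists_perm_pair {b b' : β} (hb : b ≠ b') :
    ∃ σ : Equiv.Perm (Fin m × β), (∀ i, σ (i, b) = (i, b')) ∧
      (∀ i, σ (i, b') = (rev i, b)) ∧ (∀ p : Fin m × β, p.2 ≠ b → p.2 ≠ b' → σ p = p) := by
  let f : Fin m × β → Fin m × β := fun p =>
    if p.2 = b then (p.1, b') else if p.2 = b' then (rev p.1, b) else p
  let g : Fin m × β → Fin m × β := fun p =>
    if p.2 = b' then (p.1, b) else if p.2 = b then (rev p.1, b') else p
  have h1 : Function.LeftInverse g f := by
    rintro ⟨i, c⟩
    by_cases hc : c = b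
    · subst hc; simp [f, g]
    · by_cases hc' : c = b'
      · subst hc'; simp [f, g, hc, hb, rev_rev]
      · simp [f, g, hc, hc']
  have h2 : Function.RightInverse g f := by
    rintro ⟨i, c⟩
    by_cases hc : c = b'
    · subst hc; simp [f, g]
    · by_cases hc' : c = b
      · subst hc'; simp [f, g, hb, hb.symm, rev_rev]
      · simp [f, g, hc, hc']
  refine ⟨⟨f, g, h1, h2⟩, fun i => ?_, fun i => ?_, ?_⟩
  · simp [f]
  · simp [f, hb.symm]
  · rintro ⟨i, c⟩ h3 h4
    simp only at h3 h4
    simp [f, h3, h4]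

theorem small_pair [Fintype β] {gs : List Gate} {out : Fin m → ℕ}
    (hc : CircuitComputes gs out (dftMatrix m)) {C : ℝ} (hC : 1 ≤ C) (hm : 1 ≤ m)
    (hmC : (m : ℝ) ≤ C) (hg : ∀ g ∈ gs, g.Bdd C) {b b' : β} (hb : b ≠ b')
    (hcard : gs.length ≤ m * (Fintype.card β - 2)) :
    Small C (24 * gs.length + 13 * m) (TS (m := m) {b, b'}) := by
  classical
  -- the dirty registers
  obtain ⟨R, hR1, hR2⟩ : ∃ R : ℕ → Fin m × β, (∀ a < gs.length, ∀ a' < gs.length,
      R a = R a' → a = a') ∧ ∀ a < gs.length, (R a).2 ≠ b ∧ (R a).2 ≠ b' := by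
    have hcard' : Fintype.card (Fin gs.length) ≤
        Fintype.card {p : Fin m × β // p.2 ≠ b ∧ p.2 ≠ b'} := by
      have e : Fintype.card {p : Fin m × β // p.2 ≠ b ∧ p.2 ≠ b'} =
          m * (Fintype.card β - 2) := by
        have e1 : {p : Fin m × β // p.2 ≠ b ∧ p.2 ≠ b'} ≃
            Fin m × {c : β // c ≠ b ∧ c ≠ b'} :=
          { toFun := fun p => (p.1.1, ⟨p.1.2, p.2⟩)
            invFun := fun q => ⟨(q.1, q.2.1), q.2.2⟩
            left_inv := fun p => rfl
            right_inv := fun q => rfl }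
        rw [Fintype.card_congr e1, Fintype.card_prod, Fintype.card_fin]
        congr 1
        rw [Fintype.card_subtype]
        have : (Finset.univ.filter fun c : β => c ≠ b ∧ c ≠ b') = Finset.univ \ {b, b'} := by
          ext c; simp
        rw [this, Finset.card_sdiff_of_subset (Finset.subset_univ _), Finset.card_univ,
          Finset.card_pair hb]
      rw [e, Fintype.card_fin]
      exact hcard
    obtain ⟨e⟩ := Function.Embedding.nonempty_of_card_le hcard'
    refine ⟨fun a => if h : a < gs.length then (e ⟨a, h⟩).1 else (⟨0, hm⟩, b), ?_, ?_⟩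
    · intro a ha a' ha' h
      simp only [ha, ha', dif_pos] at h
      have := e.injective (Subtype.ext h)
      simpa using this
    · intro a ha
      simp only [ha, dif_pos]
      exact (e ⟨a, ha⟩).2
  set X : Fin m → Fin m × β := fun i => (i, b) with hX
  set Y : Fin m → Fin m × β := fun i => (i, b') with hY
  have hset : Setup X Y R gs.length := by
    refine ⟨fun i j h => (Prod.ext_iff.1 h).1, fun i j h => (Prod.ext_iff.1 h).1,
      fun i j h => hb (Prod.ext_iff.1 h).2, fun i a ha h => (hR2 a ha).1 ?_,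
      fun i a ha h => (hR2 a ha).2 ?_, hR1⟩
    · rw [← h]
    · rw [← h]
  obtain ⟨σ, hσ1, hσ2, hσ3⟩ := exists_perm_pair (m := m) hb
  refine ⟨pairProg X Y R gs out, σ, length_pairProg_le _ _ _ _ _,
    legal_pairProg hset out hC hm hmC hg, ?_⟩
  rintro z ⟨i, c⟩
  obtain ⟨r1, r2, r3⟩ := run_pairProg hset hc hC hm hg z
  by_cases h1 : c = b
  · subst h1
    rw [hσ1]
    have := r2 i
    simp only [hY] at this
    rw [this]
    simp [TS, hX, Function.comp_def]
  · by_cases h2 : c = b'
    · subst h2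
      rw [hσ2]
      have := r1 (rev i)
      simp only [hX] at this
      rw [this, rev_rev]
      simp [TS, hY, Function.comp_def]
    · rw [hσ3 _ h1 h2, r3 _ (fun j e => h1 (Prod.ext_iff.1 e).2.symm)
        (fun j e => h2 (Prod.ext_iff.1 e).2.symm)]
      simp [TS, h1, h2]

/-! ### Gaussian elimination -/

/-- matrices with an in-place program -/
def HasProg (M : Matrix (Fin m) (Fin m) ℂ) : Prop :=
  ∃ (C : ℝ) (p : List (Step (Fin m))), (∀ s ∈ p, s.Legal C) ∧ ∀ z, run p z = M *ᵥ z

theorem HasProg.one : HasProg (1 : Matrix (Fin m) (Fin m) ℂ) :=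
  ⟨0, [], by simp, by simp⟩

theorem HasProg.mul {M N : Matrix (Fin m) (Fin m) ℂ} (hM : HasProg M) (hN : HasProg N) :
    HasProg (M * N) := by
  obtain ⟨C, p, h1, h2⟩ := hM
  obtain ⟨C', q, h3, h4⟩ := hN
  refine ⟨max C C', q ++ p, ?_, ?_⟩
  · intro s hs
    rcases List.mem_append.1 hs with h | h
    · exact (h3 s h).mono (le_max_right _ _)
    · exact (h1 s h).mono (le_max_left _ _)
  · intro z
    rw [run_append, h4, h2, Matrix.mulVec_mulVec]

theorem HasProg.transvection (t : Matrix.TransvectionStruct (Fin m) ℂ) : HasProg t.toMatrix := by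
  refine ⟨‖t.c‖, [.add t.i t.j t.c], ?_, ?_⟩
  · intro s hs
    rw [List.mem_singleton] at hs
    subst hs
    exact ⟨t.hij, le_rfl⟩
  · intro z
    funext r
    simp only [run_cons, run_nil, Step.act, Matrix.TransvectionStruct.toMatrix,
      Matrix.transvection, Matrix.add_mulVec, Matrix.one_mulVec, Pi.add_apply]
    by_cases hr : r = t.i
    · subst hr
      simp [Matrix.mulVec, dotProduct, Matrix.single_apply]
    · have hr' : ¬ (t.i = r) := fun e => hr e.symm
      simp [Function.update_of_ne hr, Matrix.mulVec, dotProduct, hr']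

theorem HasProg.list_prod {l : List (Matrix (Fin m) (Fin m) ℂ)} (h : ∀ M ∈ l, HasProg M) :
    HasProg l.prod := by
  induction l with
  | nil => simpa using HasProg.one
  | cons M l ih =>
    rw [List.prod_cons]
    exact (h M List.mem_cons_self).mul (ih fun N hN => h N (List.mem_cons_of_mem _ hN))

theorem HasProg.diagonal {D : Fin m → ℂ} (hD : ∀ i, D i ≠ 0) :
    HasProg (Matrix.diagonal D) := by
  obtain ⟨C, hC⟩ : ∃ C : ℝ, ∀ i, ‖D i‖ ≤ C ∧ ‖(D i)⁻¹‖ ≤ C := by
    refine ⟨∑ i, (‖D i‖ + ‖(D i)⁻¹‖), fun i => ?_⟩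
    have h := Finset.single_le_sum (f := fun i => ‖D i‖ + ‖(D i)⁻¹‖)
      (fun i _ => by positivity) (Finset.mem_univ i)
    constructor
    · linarith [norm_nonneg (D i)⁻¹]
    · linarith [norm_nonneg (D i)]
  refine ⟨C, (List.finRange m).map fun i => Step.scale i (D i), ?_, ?_⟩
  · intro s hs
    obtain ⟨i, _, rfl⟩ := List.mem_map.1 hs
    exact ⟨hD i, (hC i).1, (hC i).2⟩
  · intro z
    funext r
    have := run_scales (f := fun i : Fin m => i) Function.injective_id D (List.finRange m)
      (List.nodup_finRange m) z (List.mem_finRange r)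
    rw [this, Matrix.mulVec_diagonal]

theorem hasProg_of_det_ne_zero {M : Matrix (Fin m) (Fin m) ℂ} (hM : M.det ≠ 0) : HasProg M := by
  obtain ⟨l, l', D, h⟩ := Matrix.Pivot.exists_list_transvec_mul_diagonal_mul_list_transvec M
  have hD : ∀ i, D i ≠ 0 := by
    have hdet := congrArg Matrix.det h
    rw [Matrix.det_mul, Matrix.det_mul, Matrix.det_diagonal,
      Matrix.TransvectionStruct.det_toMatrix_prod, Matrix.TransvectionStruct.det_toMatrix_prod,
      one_mul, mul_one] at hdet
    rw [hdet] at hM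
    intro i hi
    exact hM (Finset.prod_eq_zero (Finset.mem_univ i) hi)
  rw [h]
  refine (HasProg.mul (HasProg.list_prod ?_) (HasProg.diagonal hD)).mul (HasProg.list_prod ?_)
  · intro N hN
    obtain ⟨t, _, rfl⟩ := List.mem_map.1 hN
    exact HasProg.transvection t
  · intro N hN
    obtain ⟨t, _, rfl⟩ := List.mem_map.1 hN
    exact HasProg.transvection t

theorem det_dft_ne_zero (hm : 1 ≤ m) : (dftMatrix m).det ≠ 0 := by
  have hm0 : (m : ℂ) ≠ 0 := by exact_mod_cast (by omega : m ≠ 0)
  intro h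
  obtain ⟨v, hv, hv0⟩ := Matrix.exists_mulVec_eq_zero_iff.2 h
  apply hv
  funext i
  have := dft_dft_rev v i
  rw [hv0, Matrix.mulVec_zero] at this
  simpa [hm0] using this.symm

theorem hasProg_dft (hm : 1 ≤ m) : HasProg (dftMatrix m) :=
  hasProg_of_det_ne_zero (det_dft_ne_zero hm)

theorem small_single {C : ℝ} {p : List (Step (Fin m))} (hp : ∀ s ∈ p, s.Legal C)
    (hrun : ∀ z, run p z = dftMatrix m *ᵥ z) (b : β) :
    Small C p.length (TS (m := m) {b}) := by
  have hinj : Function.Injective fun i : Fin m => (i, b) := fun i j h => (Prod.ext_iff.1 h).1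
  refine ⟨p.map (Step.map fun i => (i, b)), 1, by simp, ?_, ?_⟩
  · intro s hs
    obtain ⟨t, ht, rfl⟩ := List.mem_map.1 hs
    exact (hp t ht).map hinj
  · rintro z ⟨i, c⟩
    rw [Equiv.Perm.one_apply]
    by_cases hc : c = b
    · subst hc
      have h1 := congrFun (run_map hinj p z) i
      rw [hrun] at h1
      simp only [Function.comp_apply] at h1
      rw [h1]
      simp [TS, Function.comp_def]
    · rw [run_map_of_notMem]
      · simp [TS, hc]
      · rintro ⟨j, e⟩
        exact hc (Prod.ext_iff.1 e).2.symm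

/-- transform of an arbitrary set of blocks -/
theorem small_set [Fintype β] {gs : List Gate} {out : Fin m → ℕ}
    (hc : CircuitComputes gs out (dftMatrix m)) {C : ℝ} (hC : 1 ≤ C) (hm : 1 ≤ m)
    (hmC : (m : ℝ) ≤ C) (hg : ∀ g ∈ gs, g.Bdd C)
    (hcard : gs.length ≤ m * (Fintype.card β - 2))
    {p : List (Step (Fin m))} (hp : ∀ s ∈ p, s.Legal C)
    (hrun : ∀ z, run p z = dftMatrix m *ᵥ z) (n : ℕ) :
    ∀ S : Finset β, S.card = n →
      Small C (n / 2 * (24 * gs.length + 13 * m) + p.length) (TS (m := m) S) := by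
  induction n using Nat.strong_induction_on with
  | _ n ih =>
    intro S hS
    rcases Nat.lt_or_ge n 2 with h2 | h2
    · rcases Nat.eq_zero_or_pos n with h0 | h0
      · have : S = ∅ := Finset.card_eq_zero.1 (by omega)
        subst this
        have e : (TS (m := m) (∅ : Finset β)) = fun z => z := by
          funext z; exact TS_empty z
        rw [e]
        exact (Small.id C).mono le_rfl (Nat.zero_le _)
      · obtain ⟨b, hb⟩ := Finset.card_eq_one.1 (by omega : S.card = 1)
        subst hb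
        exact (small_single hp hrun b).mono le_rfl (by omega)
    · obtain ⟨b, hbS, b', hb'S, hbb⟩ := Finset.one_lt_card.1 (by omega : 1 < S.card)
      have hsub : ({b, b'} : Finset β) ⊆ S := by
        intro c hc'
        simp only [Finset.mem_insert, Finset.mem_singleton] at hc'
        rcases hc' with rfl | rfl <;> assumption
      have hcard2 : (S \ {b, b'}).card = n - 2 := by
        rw [Finset.card_sdiff_of_subset hsub, Finset.card_pair hbb, hS]
      have h1 := ih (n - 2) (by omega) (S \ {b, b'}) hcard2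
      have h3 := h1.comp (small_pair hc hC hm hmC hg hbb hcard)
      have e : (fun z => TS (m := m) {b, b'} (TS (S \ {b, b'}) z)) = TS S := by
        funext z
        rw [TS_union _ _ Finset.disjoint_sdiff, Finset.union_sdiff_of_subset hsub]
      rw [e] at h3
      refine h3.mono le_rfl ?_
      have : n / 2 = (n - 2) / 2 + 1 := by omega
      rw [this]
      ring_nf
      omega

end blocks

end Vale.Agent.P344.InPlace
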